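import Vale.Agent.P105.H5.GDim

/-!
# Gibbs inequality and subadditivity of the entropy, general digits (helper5)
-/

open MeasureTheory ProbabilityTheory Real Filter Topology
open scoped ENNReal NNReal

namespace Vale.Agent.P105.H5.G

variable {ι : Type*} [Fintype ι] [MeasurableSpace ι] [MeasurableSingletonClass ι]
  (P : Measure ι) [IsProbabilityMeasure P] (d : ι → ℝ)

/-- Gibbs' inequality for a finite probability vector. -/
lemma gibbs_finset {α : Type*} (V : Finset α) (p F : α → ℝ) (hp : ∀ x ∈ V, 0 ≤ p x)
    (hs : ∑ x ∈ V, p x = 1) :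
    ∑ x ∈ V, negMulLog (p x) ≤ log (∑ x ∈ V, exp (F x)) - ∑ x ∈ V, p x * F x := by
  set Z : ℝ := ∑ x ∈ V, exp (F x) with hZ
  have hne : V.Nonempty := by
    rw [Finset.nonempty_iff_ne_empty]
    rintro rfl
    simp at hs
  have hZ0 : 0 < Z := Finset.sum_pos (fun _ _ => exp_pos _) hne
  have key : ∀ x ∈ V, negMulLog (p x) + p x * F x - p x * log Z ≤ exp (F x) / Z - p x := by
    intro x hx
    rcases (hp x hx).eq_or_lt with h | h
    · rw [← h]
      simp only [negMulLog_zero, zero_mul, add_zero, sub_zero]
      positivity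
    · have h1 := log_le_sub_one_of_pos (x := exp (F x) / Z / p x) (by positivity)
      rw [log_div (by positivity) h.ne', log_div (exp_pos _).ne' hZ0.ne', log_exp] at h1
      have h2 := mul_le_mul_of_nonneg_left h1 h.le
      have h3 : p x * (exp (F x) / Z / p x - 1) = exp (F x) / Z - p x := by
        field_simp
      rw [h3] at h2
      rw [negMulLog]
      linarith
  have h2 := Finset.sum_le_sum key
  rw [Finset.sum_sub_distrib, Finset.sum_sub_distrib, Finset.sum_add_distrib, ← Finset.sum_mul,
    ← Finset.sum_div, hs, ← hZ, div_self hZ0.ne'] at h2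
  linarith

/-- **Gibbs' inequality** for the partial sums. -/
theorem gibbs (lam : ℝ) (n : ℕ) (F : ℝ → ℝ) :
    gent P d lam n ≤ log (∑ x ∈ vals d lam n, exp (F x)) -
      ∑ e : Fin n → ι, wt P n e * F (gsum d lam n e) := by
  rw [← sum_gprob]
  exact gibbs_finset _ _ F (fun x _ => gprob_nonneg P d lam n x) (sum_gprob_one P d lam n)

omit [MeasurableSingletonClass ι] [IsProbabilityMeasure P] in
lemma gprob_eq_sum_ite (lam : ℝ) (n : ℕ) (x : ℝ) :
    gprob P d lam n x = ∑ e : Fin n → ι, wt P n e * (if gsum d lam n e = x then 1 else 0) := by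
  classical
  rw [gprob, Finset.sum_filter]
  refine Finset.sum_congr rfl fun e _ => ?_
  split_ifs <;> simp

omit [MeasurableSingletonClass ι] [IsProbabilityMeasure P] [Fintype ι] in
lemma wt_append (m n : ℕ) (e : Fin m → ι) (e' : Fin n → ι) :
    wt P (m + n) (Fin.append e e') = wt P m e * wt P n e' := by
  unfold wt
  rw [Fin.prod_univ_add]
  simp

omit [Fintype ι] [MeasurableSpace ι] [MeasurableSingletonClass ι] in
lemma gsum_append (lam : ℝ) (m n : ℕ) (e : Fin m → ι) (e' : Fin n → ι) :
    gsum d lam (m + n) (Fin.append e e') = gsum d lam m e + lam ^ m * gsum d lam n e' := by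
  unfold gsum
  rw [Fin.sum_univ_add]
  simp only [Fin.append_left, Fin.append_right, Fin.val_castAdd, Fin.val_natAdd]
  rw [Finset.mul_sum]
  congr 1
  refine Finset.sum_congr rfl fun i _ => ?_
  rw [pow_add]; ring

omit [MeasurableSpace ι] [MeasurableSingletonClass ι] in
lemma sum_words_add (m n : ℕ) (g : (Fin (m + n) → ι) → ℝ) :
    ∑ E : Fin (m + n) → ι, g E = ∑ e : Fin m → ι, ∑ e' : Fin n → ι, g (Fin.append e e') := by
  rw [← (Fin.appendEquiv m n (α := ι)).sum_comp, Fintype.sum_prod_type]
  rfl

omit [MeasurableSingletonClass ι] [IsProbabilityMeasure P] in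
lemma sum_split (lam : ℝ) (m n : ℕ) (f : ℝ → ℝ) :
    ∑ E : Fin (m + n) → ι, wt P (m + n) E * f (gsum d lam (m + n) E) =
      ∑ x ∈ vals d lam m, gprob P d lam m x *
        ∑ y ∈ vals d lam n, gprob P d lam n y * f (x + lam ^ m * y) := by
  rw [sum_words_add]
  rw [sum_gprob P d lam m (fun x => ∑ y ∈ vals d lam n, gprob P d lam n y * f (x + lam ^ m * y))]
  refine Finset.sum_congr rfl fun e _ => ?_
  rw [sum_gprob P d lam n (fun y => f (gsum d lam m e + lam ^ m * y)), Finset.mul_sum]
  refine Finset.sum_congr rfl fun e' _ => ?_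
  rw [wt_append, gsum_append]
  ring

omit [MeasurableSpace ι] [MeasurableSingletonClass ι] in
lemma exists_word_of_mem_vals {lam : ℝ} {n : ℕ} {x : ℝ} (hx : x ∈ vals d lam n) :
    ∃ e : Fin n → ι, gsum d lam n e = x := by
  classical
  unfold vals at hx
  obtain ⟨e, -, he⟩ := Finset.mem_image.mp hx
  exact ⟨e, he⟩

omit [MeasurableSingletonClass ι] [IsProbabilityMeasure P] in
lemma mul_gprob_le (lam : ℝ) (m n : ℕ) {x y : ℝ} (hx : x ∈ vals d lam m) (hy : y ∈ vals d lam n) :
    gprob P d lam m x * gprob P d lam n y ≤ gprob P d lam (m + n) (x + lam ^ m * y) := by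
  classical
  rw [gprob_eq_sum_ite P d lam (m + n)]
  rw [sum_split P d lam m n (fun z => if z = x + lam ^ m * y then 1 else 0)]
  have h1 : gprob P d lam n y ≤
      ∑ y' ∈ vals d lam n, gprob P d lam n y' * (if x + lam ^ m * y' = x + lam ^ m * y then 1 else 0) := by
    have := Finset.single_le_sum (s := vals d lam n) (f := fun y' =>
      gprob P d lam n y' * (if x + lam ^ m * y' = x + lam ^ m * y then (1 : ℝ) else 0))
      (fun y' _ => mul_nonneg (gprob_nonneg P d lam n y') (by split_ifs <;> norm_num)) hy
    simpa using this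
  have h2 := Finset.single_le_sum (s := vals d lam m) (f := fun x' => gprob P d lam m x' *
      ∑ y' ∈ vals d lam n, gprob P d lam n y' *
        (if x' + lam ^ m * y' = x + lam ^ m * y then (1 : ℝ) else 0))
      (fun x' _ => mul_nonneg (gprob_nonneg P d lam m x') (Finset.sum_nonneg fun y' _ =>
        mul_nonneg (gprob_nonneg P d lam n y') (by split_ifs <;> norm_num))) hx
  refine le_trans ?_ h2
  exact mul_le_mul_of_nonneg_left h1 (gprob_nonneg P d lam m x)

/-- Subadditivity of the entropy of the partial sums. -/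
theorem gent_add_le (hP : ∀ i, 0 < P.real {i}) (lam : ℝ) (m n : ℕ) :
    gent P d lam (m + n) ≤ gent P d lam m + gent P d lam n := by
  have h0 : gent P d lam (m + n) =
      ∑ x ∈ vals d lam m, gprob P d lam m x *
        ∑ y ∈ vals d lam n, gprob P d lam n y * (-log (gprob P d lam (m + n) (x + lam ^ m * y))) := by
    rw [← sum_split P d lam m n (fun z => -log (gprob P d lam (m + n) z)),
      ← sum_gprob P d lam (m + n) (fun z => -log (gprob P d lam (m + n) z)), gent]
    refine Finset.sum_congr rfl fun x _ => ?_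
    rw [negMulLog]; ring
  have hpos : ∀ (k : ℕ) (x : ℝ), x ∈ vals d lam k → 0 < gprob P d lam k x := by
    intro k x hx
    obtain ⟨e, rfl⟩ := exists_word_of_mem_vals d hx
    exact gprob_pos P d hP lam k e
  rw [h0]
  have h1 : ∀ x ∈ vals d lam m, gprob P d lam m x *
        ∑ y ∈ vals d lam n, gprob P d lam n y * (-log (gprob P d lam (m + n) (x + lam ^ m * y))) ≤
      gprob P d lam m x * (-log (gprob P d lam m x) + gent P d lam n) := by
    intro x hx
    refine mul_le_mul_of_nonneg_left ?_ (gprob_nonneg P d lam m x)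
    have h2 : ∀ y ∈ vals d lam n,
        gprob P d lam n y * (-log (gprob P d lam (m + n) (x + lam ^ m * y))) ≤
        gprob P d lam n y * (-log (gprob P d lam m x)) + negMulLog (gprob P d lam n y) := by
      intro y hy
      have hx0 := hpos m x hx
      have hy0 := hpos n y hy
      have h3 := log_le_log (mul_pos hx0 hy0) (mul_gprob_le P d lam m n hx hy)
      rw [log_mul hx0.ne' hy0.ne'] at h3
      rw [negMulLog]
      have h4 : -log (gprob P d lam (m + n) (x + lam ^ m * y)) ≤
          -log (gprob P d lam m x) - log (gprob P d lam n y) := by linarith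
      have h5 := mul_le_mul_of_nonneg_left h4 hy0.le
      linarith
    refine (Finset.sum_le_sum h2).trans ?_
    rw [Finset.sum_add_distrib, ← Finset.sum_mul, sum_gprob_one, one_mul]
    rfl
  refine (Finset.sum_le_sum h1).trans (le_of_eq ?_)
  have h6 : ∀ x ∈ vals d lam m,
      gprob P d lam m x * (-log (gprob P d lam m x) + gent P d lam n) =
      negMulLog (gprob P d lam m x) + gprob P d lam m x * gent P d lam n := by
    intro x _
    rw [negMulLog]; ring
  rw [Finset.sum_congr rfl h6, Finset.sum_add_distrib, ← Finset.sum_mul, sum_gprob_one, one_mul]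
  rfl

lemma gent_nonneg (lam : ℝ) (n : ℕ) : 0 ≤ gent P d lam n := by
  unfold gent
  refine Finset.sum_nonneg fun x hx => negMulLog_nonneg (gprob_nonneg _ _ _ _ _) ?_
  have h2 := sum_gprob_one P d lam n
  have h3 := Finset.single_le_sum (f := gprob P d lam n) (s := vals d lam n)
    (fun y _ => gprob_nonneg P d lam n y) hx
  linarith

omit [MeasurableSingletonClass ι] [IsProbabilityMeasure P] in
lemma gent_zero (lam : ℝ) : gent P d lam 0 = 0 := by
  classical
  have h1 : vals d lam 0 = {0} := by
    ext x
    constructor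
    · intro hx
      obtain ⟨e, rfl⟩ := exists_word_of_mem_vals d hx
      simp [gsum]
    · intro hx
      rw [Finset.mem_singleton] at hx
      subst hx
      have := mem_vals d lam 0 (fun i => i.elim0)
      simpa [gsum] using this
  rw [gent, h1, Finset.sum_singleton]
  have h2 : gprob P d lam 0 0 = 1 := by
    rw [gprob_eq_sum_ite]
    simp [wt, gsum]
  rw [h2]
  simp

theorem gent_mul_le (hP : ∀ i, 0 < P.real {i}) (lam : ℝ) (k n : ℕ) :
    gent P d lam (k * n) ≤ k * gent P d lam n := by
  induction k with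
  | zero => simp [gent_zero]
  | succ k ih =>
    rw [add_mul, one_mul]
    refine (gent_add_le P d hP lam (k * n) n).trans ?_
    push_cast
    linarith

/-- The entropy of the digit law with the overlap structure of `lam`:
the limit of `H (Y_n) / n`. -/
noncomputable def garsia (lam : ℝ) : ℝ := liminf (fun n : ℕ => gent P d lam n / n) atTop

/-- The entropy is the infimum: `garsia ≤ H (Y_n) / n` for every `n ≥ 1`. -/
theorem garsia_le (hP : ∀ i, 0 < P.real {i}) (lam : ℝ) {n : ℕ} (hn : 1 ≤ n) :
    garsia P d lam ≤ gent P d lam n / n := by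
  unfold garsia
  refine liminf_le_of_frequently_le ?_ ?_
  · rw [Filter.frequently_atTop]
    intro N
    refine ⟨(N + 1) * n, by nlinarith, ?_⟩
    have hn0 : (0 : ℝ) < n := by exact_mod_cast hn
    have h := gent_mul_le P d hP lam (N + 1) n
    rw [div_le_div_iff₀ (by positivity) hn0]
    push_cast at h ⊢
    nlinarith [h]
  · refine ⟨0, ?_⟩
    rw [Filter.eventually_map]
    exact Eventually.of_forall fun k => div_nonneg (gent_nonneg P d lam k) (Nat.cast_nonneg k)

/-- `garsia < log (1 / lam)` from one partial sum. -/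
theorem garsia_lt (hP : ∀ i, 0 < P.real {i}) {lam : ℝ} {n : ℕ} (hn : 1 ≤ n)
    (hs : gent P d lam n < n * log (1 / lam)) : garsia P d lam < log (1 / lam) := by
  refine (garsia_le P d hP lam hn).trans_lt ?_
  have hn0 : (0 : ℝ) < n := by exact_mod_cast hn
  rw [div_lt_iff₀ hn0]
  linarith

end Vale.Agent.P105.H5.G
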