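import Vale.Agent.P105.H5.Assembly

/-!
# Affine images of integer digits (helper5)
-/

open MeasureTheory ProbabilityTheory Real Filter Topology
open scoped ENNReal NNReal

namespace Vale.Agent.P105.H5.G

open Vale.Agent.P105.Salem Vale.Agent.P105.Dig

variable {ι : Type*} [Fintype ι] [MeasurableSpace ι] [MeasurableSingletonClass ι]
  (P : Measure ι) [IsProbabilityMeasure P]

omit [MeasurableSingletonClass ι] [IsProbabilityMeasure P] in
/-- The entropy does not change when the values of the partial sum are relabelled. -/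
lemma gent_congr {d d' : ι → ℝ} {lam : ℝ} {n : ℕ} {f : ℝ → ℝ} (hf : Function.Injective f)
    (h : ∀ e : Fin n → ι, gsum d' lam n e = f (gsum d lam n e)) :
    gent P d' lam n = gent P d lam n := by
  classical
  have h1 : vals d' lam n = (vals d lam n).image f := by
    ext x
    rw [Finset.mem_image]
    constructor
    · intro hx
      obtain ⟨e, rfl⟩ := exists_word_of_mem_vals d' hx
      exact ⟨_, mem_vals d lam n e, (h e).symm⟩
    · rintro ⟨y, hy, rfl⟩
      obtain ⟨e, rfl⟩ := exists_word_of_mem_vals d hy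
      rw [← h e]
      exact mem_vals d' lam n e
  have h2 : ∀ x, gprob P d' lam n (f x) = gprob P d lam n x := by
    intro x
    unfold gprob
    refine Finset.sum_congr ?_ fun _ _ => rfl
    ext e
    simp only [Finset.mem_filter, Finset.mem_univ, true_and, h e]
    exact hf.eq_iff
  rw [gent, h1, Finset.sum_image (fun x _ y _ hxy => hf hxy), gent]
  exact Finset.sum_congr rfl fun x _ => by rw [h2]

omit [Fintype ι] [MeasurableSpace ι] [MeasurableSingletonClass ι] in
lemma gsum_affine (d : ι → ℝ) (r t lam : ℝ) (n : ℕ) (e : Fin n → ι) :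
    gsum (fun i => r * d i + t) lam n e =
      r * gsum d lam n e + t * ∑ i : Fin n, lam ^ (i : ℕ) := by
  unfold gsum
  rw [Finset.mul_sum, Finset.mul_sum, ← Finset.sum_add_distrib]
  exact Finset.sum_congr rfl fun i _ => by ring

/-- Entropy drop for digits in an affine image of the integers. -/
theorem exists_entropy_lt_affine {b : ℝ} (hS : IsSalem b) (h4 : (minpoly ℚ b).natDegree = 4)
    (d : ι → ℤ) (r t : ℝ) :
    ∃ n : ℕ, 1 ≤ n ∧ gent P (fun i => r * d i + t) b⁻¹ n < n * log b := by
  by_cases hr : r = 0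
  · obtain ⟨n, hn, h⟩ := exists_entropy_lt P (fun _ => 0) hS h4
    refine ⟨n, hn, ?_⟩
    rwa [gent_congr P (f := fun x => x + t * ∑ i : Fin n, b⁻¹ ^ (i : ℕ))
      (d := fun i => (((fun _ : ι => (0 : ℤ)) i : ℤ) : ℝ)) (add_left_injective _) (fun e => ?_)]
    rw [gsum_affine (fun i => (d i : ℝ)), hr]
    simp [gsum]
  · obtain ⟨n, hn, h⟩ := exists_entropy_lt P d hS h4
    refine ⟨n, hn, ?_⟩
    rwa [gent_congr P (f := fun x => r * x + t * ∑ i : Fin n, b⁻¹ ^ (i : ℕ))
      (d := fun i => (d i : ℝ)) (fun x y hxy => mul_left_cancel₀ hr (add_right_cancel hxy))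
      (fun e => gsum_affine (fun i => (d i : ℝ)) r t b⁻¹ n e)]

/-- **All homogeneous self-similar measures with ratio `1 / b` and digits in `r ℤ + t`**, `b` a
Salem number of degree four: the entropy is smaller than `log b`, and a Borel set of full measure
has Hausdorff dimension smaller than one. -/
theorem all_digits {b : ℝ} (hS : IsSalem b) (h4 : (minpoly ℚ b).natDegree = 4)
    (hP : ∀ i, 0 < P.real {i}) (d : ι → ℤ) (r t : ℝ) :
    garsia P (fun i => r * d i + t) b⁻¹ < log b ∧
      ∃ A : Set ℝ, MeasurableSet A ∧ gssm P (fun i => r * d i + t) b⁻¹ A = 1 ∧ dimH A < 1 := by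
  obtain ⟨n, hn, h⟩ := exists_entropy_lt_affine P hS h4 d r t
  have hb : 1 < b := hS.1
  have hb0 : 0 < b := by linarith
  have e : log (1 / b⁻¹) = log b := by rw [one_div, inv_inv]
  constructor
  · have := garsia_lt P (fun i => r * d i + t) hP (lam := b⁻¹) hn (by rw [e]; exact h)
    rwa [e] at this
  · exact exists_dim_lt_one P (fun i => r * d i + t) hP (inv_pos.2 hb0)
      (inv_lt_one_of_one_lt₀ hb) hn (by rw [e]; exact h)

end Vale.Agent.P105.H5.G
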