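import Vale.Agent.P105.Dig.Zeros
import Vale.Agent.P105.H5.GGibbs
import Vale.Agent.P105.H892.GEntropy
import Vale.Agent.P105.H897.Count
import Vale.Agent.P105.H897.ZetaPoly

/-!
# Entropy and dimension drop for all integer digits (assembly, helper5)

`b` a Salem number of degree four, `P` a probability measure on a finite type, `d` integer digits:
the entropy of some partial sum is smaller than `n * log b`.
-/

open MeasureTheory ProbabilityTheory Real Filter Topology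
open scoped ENNReal NNReal

namespace Vale.Agent.P105.H5.G

open Vale.Agent.P105.Salem Vale.Agent.P105.Dig

variable {ι : Type*} [Fintype ι] [MeasurableSpace ι] [MeasurableSingletonClass ι]
  (P : Measure ι) [IsProbabilityMeasure P] (d : ι → ℤ)

lemma e1_sum {α : Type*} (s : Finset α) (f : α → ℝ) : e1 (∑ i ∈ s, f i) = ∏ i ∈ s, e1 (f i) := by
  classical
  induction s using Finset.induction_on with
  | empty => simp [e1_zero]
  | insert a s ha ih => rw [Finset.sum_insert ha, Finset.prod_insert ha, e1_add, ih]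

lemma ch_map (x : ℝ) : ch (P.map d) x = ∑ i, (P.real {i} : ℂ) * e1 (x * d i) := by
  unfold ch
  rw [integral_map (measurable_of_finite d).aemeasurable
    (measurable_of_countable _).aestronglyMeasurable, integral_fintype (hf := Integrable.of_finite)]
  refine Finset.sum_congr rfl fun i _ => ?_
  rw [Complex.real_smul]

/-- The Fourier transform of the partial sum. -/
lemma sum_wt_e1 (lam x : ℝ) (n : ℕ) :
    ∑ e : Fin n → ι, (wt P n e : ℂ) * e1 (x * gsum (fun i => (d i : ℝ)) lam n e) =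
      ∏ i : Fin n, ch (P.map d) (x * lam ^ (i : ℕ)) := by
  classical
  simp only [ch_map]
  rw [Finset.prod_univ_sum, Fintype.piFinset_univ]
  refine Finset.sum_congr rfl fun e _ => ?_
  rw [Finset.prod_mul_distrib]
  congr 1
  · unfold wt
    push_cast
    rfl
  · unfold gsum
    rw [Finset.mul_sum, e1_sum]
    refine Finset.prod_congr rfl fun i _ => ?_
    congr 1
    ring

lemma exists_phase (z : ℂ) : ∃ φ : ℝ, (Complex.exp (φ * Complex.I) * z).re = ‖z‖ := by
  refine ⟨-z.arg, ?_⟩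
  have h := Complex.norm_mul_exp_arg_mul_I z
  have h2 : Complex.exp ((-z.arg : ℝ) * Complex.I) * z = ‖z‖ := by
    calc Complex.exp ((-z.arg : ℝ) * Complex.I) * z
        = Complex.exp ((-z.arg : ℝ) * Complex.I) * (‖z‖ * Complex.exp (z.arg * Complex.I)) := by
          rw [h]
      _ = ‖z‖ * (Complex.exp ((-z.arg : ℝ) * Complex.I) * Complex.exp (z.arg * Complex.I)) := by
          ring
      _ = ‖z‖ := by
          rw [← Complex.exp_add]
          push_cast
          rw [neg_mul, neg_add_cancel, Complex.exp_zero, mul_one]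
  rw [h2, Complex.ofReal_re]

/-- The mean of the cosine with the right phase. -/
lemma mean_phase (lam x : ℝ) (n : ℕ) : ∃ φ : ℝ,
    ∑ e : Fin n → ι, wt P n e * cos (2 * π * x * gsum (fun i => (d i : ℝ)) lam n e + φ) =
      ∏ i : Fin n, ‖ch (P.map d) (x * lam ^ (i : ℕ))‖ := by
  obtain ⟨φ, hφ⟩ := exists_phase (∏ i : Fin n, ch (P.map d) (x * lam ^ (i : ℕ)))
  refine ⟨φ, ?_⟩
  rw [norm_prod] at hφ
  rw [← hφ, ← sum_wt_e1, Finset.mul_sum, Complex.re_sum]
  refine Finset.sum_congr rfl fun e _ => ?_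
  have e2 : Complex.exp (φ * Complex.I) * ((wt P n e : ℂ) *
      e1 (x * gsum (fun i => (d i : ℝ)) lam n e)) =
      (wt P n e : ℂ) * Complex.exp (((2 * π * x * gsum (fun i => (d i : ℝ)) lam n e + φ : ℝ) : ℂ) *
        Complex.I) := by
    unfold e1
    rw [mul_left_comm, ← Complex.exp_add]
    congr 2
    push_cast
    ring
  rw [e2, Complex.re_ofReal_mul, Complex.exp_ofReal_mul_I_re]

/-- The lower bound for the products of the characteristic functions. -/
lemma prod_lower {Q : Measure ℤ} [IsProbabilityMeasure Q] {b u c A ρ H : ℝ} (hb : 1 < b)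
    (hH : ∀ᵐ a : ℤ ∂Q, |(a : ℝ)| ≤ H) (hH0 : 0 ≤ H) (hc : 0 < c)
    (hcu : ∀ m : ℤ, c ≤ ‖ch Q (b ^ m * u)‖) (hsq : Sq b u A ρ) {k n : ℕ}
    (hk : (k : ℝ) * ρ ^ 2 ≤ 1) :
    exp (-(4 * π ^ 2 * H ^ 2 / c ^ 2 * A)) ≤ ∏ i : Fin n, ‖ch Q (b ^ k * u * b⁻¹ ^ (i : ℕ))‖ := by
  have hb0 : b ≠ 0 := by positivity
  have e1 : ∀ i : Fin n, b ^ k * u * b⁻¹ ^ (i : ℕ) = b ^ ((k : ℤ) - (i : ℕ)) * u := by
    intro i
    rw [zpow_sub₀ hb0, zpow_natCast, zpow_natCast, inv_pow, div_eq_mul_inv]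
    ring
  simp only [e1]
  set S : ℝ := ∑ i : Fin n, dn (b ^ ((k : ℤ) - (i : ℕ)) * u) ^ 2 with hS
  have hSA : S ≤ A := by
    have hinj : Function.Injective (fun i : Fin n => (k : ℤ) - ((i : ℕ) : ℤ)) := by
      intro i j hij
      simp only at hij
      exact Fin.ext (by omega)
    have h1 := hsq (Finset.univ.map ⟨_, hinj⟩) (by
      intro m hm
      rw [Finset.mem_map] at hm
      obtain ⟨i, -, rfl⟩ := hm
      simp only [Function.Embedding.coeFn_mk]
      push_cast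
      have h2 : ((k : ℝ) - (i : ℕ)) * ρ ^ 2 ≤ k * ρ ^ 2 := by
        apply mul_le_mul_of_nonneg_right _ (sq_nonneg ρ)
        have : (0 : ℝ) ≤ (i : ℕ) := Nat.cast_nonneg _
        linarith
      linarith)
    rw [Finset.sum_map] at h1
    exact h1
  have h2 : exp (-(8 * π ^ 2 * H ^ 2 / c ^ 2 * S)) ≤
      ∏ i : Fin n, ‖ch Q (b ^ ((k : ℤ) - (i : ℕ)) * u)‖ ^ 2 := by
    rw [hS, Finset.mul_sum, ← Finset.sum_neg_distrib, exp_sum]
    exact Finset.prod_le_prod (fun i _ => (exp_pos _).le) fun i _ => ch_lower hH hH0 hc (hcu _)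
  rw [Finset.prod_pow] at h2
  have hP0 : 0 ≤ ∏ i : Fin n, ‖ch Q (b ^ ((k : ℤ) - (i : ℕ)) * u)‖ :=
    Finset.prod_nonneg fun _ _ => norm_nonneg _
  have hK0 : 0 ≤ 8 * π ^ 2 * H ^ 2 / c ^ 2 := by positivity
  have h3 : exp (-(4 * π ^ 2 * H ^ 2 / c ^ 2 * A)) ^ 2 ≤
      (∏ i : Fin n, ‖ch Q (b ^ ((k : ℤ) - (i : ℕ)) * u)‖) ^ 2 := by
    refine le_trans ?_ h2
    rw [← exp_nat_mul]
    apply exp_le_exp.2
    push_cast
    have h4 := mul_le_mul_of_nonneg_left hSA hK0
    have h5 : (2 : ℝ) * -(4 * π ^ 2 * H ^ 2 / c ^ 2 * A) = -(8 * π ^ 2 * H ^ 2 / c ^ 2 * A) := by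
      ring
    rw [h5]
    linarith
  exact (sq_le_sq₀ (exp_pos _).le hP0).1 h3

/-- The choice of the smallness. -/
lemma exists_threshold (K : ℝ) {B : ℝ} (hB : 0 < B) : ∃ η : ℝ, 0 < η ∧ η ≤ 1 ∧
    ∀ ρ : ℝ, 0 < ρ → ρ ≤ η → K + 4 * log (1 / ρ) < B * (1 / ρ) := by
  set y₀ : ℝ := (8 + |K|) / B + 1 with hy₀
  have hy0 : 1 ≤ y₀ := by
    rw [hy₀]
    have : 0 ≤ (8 + |K|) / B := by positivity
    linarith
  have hy0' : 0 < y₀ := by linarith
  refine ⟨1 / y₀ ^ 2, by positivity, ?_, ?_⟩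
  · rw [div_le_one (by positivity)]
    nlinarith
  intro ρ hρ hρη
  set y : ℝ := √(1 / ρ) with hy
  have hρ1 : 0 < 1 / ρ := by positivity
  have hysq : y ^ 2 = 1 / ρ := Real.sq_sqrt hρ1.le
  have hypos : 0 < y := Real.sqrt_pos.2 hρ1
  have hyy : y₀ ≤ y := by
    apply Real.le_sqrt_of_sq_le
    rw [le_div_iff₀ hρ]
    rw [le_div_iff₀ (by positivity)] at hρη
    linarith
  have hlog : log (1 / ρ) ≤ 2 * y := by
    rw [← hysq, Real.log_pow]
    push_cast
    have := Real.log_le_sub_one_of_pos hypos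
    linarith
  rw [← hysq] at *
  have h1 : (8 + |K|) * y < B * y ^ 2 := by
    have h2 : (8 + |K|) / B < y := by
      rw [hy₀] at hyy
      linarith
    rw [div_lt_iff₀ hB] at h2
    nlinarith
  have h3 : |K| ≤ |K| * y := le_mul_of_one_le_right (abs_nonneg _) (hy0.trans hyy)
  have h4 := le_abs_self K
  linarith

/-- **Entropy drop for all integer digits.** -/
theorem exists_entropy_lt {b : ℝ} (hS : IsSalem b) (h4 : (minpoly ℚ b).natDegree = 4) :
    ∃ n : ℕ, 1 ≤ n ∧ gent P (fun i => (d i : ℝ)) b⁻¹ n < n * log b := by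
  classical
  obtain ⟨hint', ζ, hζ, hT, p, hp, hp1, hp2, hp3⟩ := H897.exists_zeta_poly hS h4
  have hb : 1 < b := hS.1
  have hint : IsIntegral ℤ b := hS.2.1
  have hb0 : 0 < b := by linarith
  have hbi0 : 0 < b⁻¹ := by positivity
  have hbi1 : b⁻¹ < 1 := inv_lt_one_of_one_lt₀ hb
  set Q : Measure ℤ := P.map d with hQ
  have : IsProbabilityMeasure Q :=
    Measure.isProbabilityMeasure_map (measurable_of_finite d).aemeasurable
  set N : ℕ := ∑ i, (d i).natAbs with hN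
  have hNd : ∀ i, |d i| ≤ (N : ℤ) := by
    intro i
    rw [Int.abs_eq_natAbs]
    have := Finset.single_le_sum (f := fun i => (d i).natAbs) (s := Finset.univ)
      (fun _ _ => Nat.zero_le _) (Finset.mem_univ i)
    exact_mod_cast this
  have hNQ : ∀ᵐ a : ℤ ∂Q, |a| ≤ (N : ℤ) := by
    rw [hQ, ae_map_iff (measurable_of_finite d).aemeasurable
      (MeasurableSet.of_discrete)]
    exact Eventually.of_forall hNd
  have hNQ' : ∀ᵐ a : ℤ ∂Q, |(a : ℝ)| ≤ (N : ℝ) := by
    filter_upwards [hNQ] with a ha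
    exact_mod_cast ha
  have hN0 : (0 : ℝ) ≤ N := Nat.cast_nonneg _
  obtain ⟨Q0, hQ0⟩ := exists_q_ch hint hNQ
  have hψ : Prof (2 + 2 * π * N) (fun x => ‖ch Q x‖) :=
    { per := fun k x => norm_ch_int_sub k x
      lip := fun x y => by
        have h1 := ch_lip hNQ' x y
        have h2 := abs_nonneg (x - y)
        nlinarith
      zero := by simp [ch_zero]
      two_le := by
        have : 0 ≤ 2 * π * N := by positivity
        linarith }
  obtain ⟨c, u₀, hc, hu₀, hst⟩ := exists_states' hb hζ hT hψ (q := max Q0 1) (le_max_right _ _)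
    (fun j g _ => ⟨norm_pos_iff.2 (hQ0 _ (le_max_left _ _) _
        (mul_mem (zpow_mem_adjoin hb hint' j)
          (sub_mem (pow_mem (Algebra.self_mem_adjoin_singleton ℤ b) g) (one_mem _)))),
      norm_pos_iff.2 (hQ0 _ (le_max_left _ _) _
        (mul_mem (zpow_mem_adjoin hb hint' j)
          (sub_mem (pow_mem (inv_mem_adjoin hb hint') g) (one_mem _))))⟩)
  obtain ⟨C, hC, hcount⟩ := H897.lattice_count hb hζ hT hp hp1 hp2 hp3 N
  obtain ⟨g, hg⟩ := ((tendsto_pow_atTop_atTop_of_one_lt hb).eventually_ge_atTop 4).exists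
  have hg1 : 1 ≤ g := by
    by_contra h0
    have : g = 0 := by omega
    rw [this, pow_zero] at hg
    norm_num at hg
  have hgR : (0 : ℝ) < g := by exact_mod_cast hg1
  set L : ℝ := N / (1 - b⁻¹) with hL
  have hL0 : 0 ≤ L := div_nonneg hN0 (by linarith)
  set K : ℝ := log C + 2 * log 4 + 5 + (L + 1 + 20 + 20 / u₀) + 1 with hK
  obtain ⟨η, hη0, hη1, hη⟩ := exists_threshold K (B := 1 / (80 * g)) (by positivity)
  set Lam : ℝ := 16 * π ^ 2 * (N : ℝ) ^ 2 / c ^ 2 with hLam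
  obtain ⟨u, s, w, D, ρ, A, -, hD1, hu₀u, huD, -, -, hρ0, hρη, -, hcu, -, hDρ, hsq, hLamA⟩ :=
    hst Lam η (by positivity) hη0
  have hρ1 : ρ ≤ 1 := hρη.trans hη1
  have hthr := hη ρ hρ0 hρη
  set J : ℕ := ⌊1 / (g * ρ ^ 2)⌋₊ with hJ
  have hX0 : 0 ≤ 1 / (g * ρ ^ 2) := by positivity
  have hJle : (J : ℝ) ≤ 1 / (g * ρ ^ 2) := Nat.floor_le hX0
  have hJgt : 1 / (g * ρ ^ 2) - 1 < J := by
    have := Nat.lt_floor_add_one (1 / ((g : ℝ) * ρ ^ 2))
    linarith
  have hgJ : (g : ℝ) * J * ρ ^ 2 ≤ 1 := by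
    have h1 : (g : ℝ) * ρ ^ 2 * J ≤ g * ρ ^ 2 * (1 / (g * ρ ^ 2)) :=
      mul_le_mul_of_nonneg_left hJle (by positivity)
    rw [mul_one_div_cancel (by positivity)] at h1
    linarith
  set n : ℕ := D + g * J + 1 with hn
  set a : ℝ := exp (log ρ / 4) with ha
  have ha0 : 0 < a := exp_pos _
  have hlogρ : log ρ ≤ 0 := Real.log_nonpos hρ0.le hρ1
  have ha1 : a ≤ 1 := by
    rw [ha, ← exp_zero]
    exact exp_le_exp.2 (by linarith)
  have ha2 : ρ ≤ a ^ 2 := by
    rw [ha, ← exp_nat_mul]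
    calc ρ = exp (log ρ) := (exp_log hρ0).symm
      _ ≤ _ := exp_le_exp.2 (by push_cast; linarith)
  -- the phases
  choose φ hφ using fun j : ℕ => mean_phase P d b⁻¹ (b ^ (g * j) * u) n
  have hmean : ∀ j < J, a ≤ ∑ e : Fin n → ι, wt P n e *
      cos (2 * π * (b ^ (g * j) * u) * gsum (fun i => (d i : ℝ)) b⁻¹ n e + φ j) := by
    intro j hj
    rw [hφ j]
    have hk : ((g * j : ℕ) : ℝ) * ρ ^ 2 ≤ 1 := by
      refine le_trans ?_ hgJ
      apply mul_le_mul_of_nonneg_right _ (sq_nonneg ρ)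
      push_cast
      exact mul_le_mul_of_nonneg_left (by exact_mod_cast hj.le) hgR.le
    refine le_trans ?_ (prod_lower (n := n) hb hNQ' hN0 hc hcu hsq hk)
    rw [ha]
    apply exp_le_exp.2
    have h5 : 4 * π ^ 2 * (N : ℝ) ^ 2 / c ^ 2 * A = Lam * A / 4 := by
      rw [hLam]; ring
    rw [h5]
    linarith
  -- the values
  have hval : ∀ y ∈ vals (fun i => (d i : ℝ)) b⁻¹ n, |y| ≤ L := by
    intro y hy
    obtain ⟨e, rfl⟩ := exists_word_of_mem_vals _ hy
    unfold gsum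
    calc |∑ i : Fin n, (d (e i) : ℝ) * b⁻¹ ^ (i : ℕ)|
        ≤ ∑ i : Fin n, |(d (e i) : ℝ) * b⁻¹ ^ (i : ℕ)| := Finset.abs_sum_le_sum_abs _ _
      _ ≤ ∑ i : Fin n, N * b⁻¹ ^ (i : ℕ) := by
          refine Finset.sum_le_sum fun i _ => ?_
          rw [abs_mul, abs_of_pos (pow_pos hbi0 _)]
          refine mul_le_mul_of_nonneg_right ?_ (pow_pos hbi0 _).le
          have := hNd (e i)
          exact_mod_cast this
      _ = N * ∑ i ∈ Finset.range n, b⁻¹ ^ i := by
          rw [← Finset.mul_sum, Finset.sum_range]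
      _ ≤ N * (1 - b⁻¹)⁻¹ := by
          refine mul_le_mul_of_nonneg_left ?_ hN0
          exact (summable_geometric_of_lt_one hbi0.le hbi1).sum_le_tsum _
            (fun i _ => (pow_pos hbi0 i).le) |>.trans_eq (tsum_geometric_of_lt_one hbi0.le hbi1)
      _ = L := by rw [hL, div_eq_mul_inv]
  have hn1 : 1 ≤ n := by omega
  have hcount' : ∀ x : ℝ, (((vals (fun i => (d i : ℝ)) b⁻¹ n).filter
      fun y => x ≤ y ∧ y ≤ x + b⁻¹ ^ n).card : ℝ) ≤ C * n ^ 2 := by
    intro x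
    refine hcount n hn1 x _ fun y hy => ?_
    rw [Finset.mem_filter] at hy
    obtain ⟨e, he⟩ := exists_word_of_mem_vals _ hy.1
    refine ⟨hy.2.1, hy.2.2, fun i => if hi : i < n then d (e ⟨i, hi⟩) else 0, ?_, ?_⟩
    · intro i
      dsimp only
      split_ifs
      · exact hNd _
      · simp
    · rw [← he]
      unfold gsum
      rw [Finset.sum_range]
      refine Finset.sum_congr rfl fun i _ => ?_
      simp
  have hmain := H892.gentropy_state P (fun i => (d i : ℝ)) (θ := 2 * π) (u := u) (a := a)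
    (u₀ := u₀) (C := C) (L := L) (D := D) (g := g) (n := n) (J := J) hb hC hL0
    (by have := Real.pi_gt_three; linarith) (by have := Real.pi_lt_four; linarith)
    hval hcount' (gibbs P (fun i => (d i : ℝ)) b⁻¹ n) hg hu₀ hu₀u huD ha0 ha1 hmean (by omega)
  refine ⟨n, hn1, ?_⟩
  -- the logarithm of `n`
  have hnle : (n : ℝ) ≤ 4 * (1 / ρ) ^ 2 := by
    have h1 : (D : ℝ) ≤ 2 * (1 / ρ) := by
      rw [mul_one_div, le_div_iff₀ hρ0]
      exact hDρ
    have h2 : (g : ℝ) * J ≤ (1 / ρ) ^ 2 := by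
      rw [div_pow, one_pow, le_div_iff₀ (by positivity)]
      exact hgJ
    have h3 : 1 ≤ 1 / ρ := by rw [le_div_iff₀ hρ0]; linarith
    rw [hn]
    push_cast
    nlinarith
  have hlogn : log n ≤ log 4 + 2 * log (1 / ρ) := by
    have hn0 : (0 : ℝ) < n := by exact_mod_cast hn1
    refine (Real.log_le_log hn0 hnle).trans (le_of_eq ?_)
    rw [Real.log_mul (by norm_num) (by positivity), Real.log_pow]
    push_cast
    ring
  have hgain : 1 / (80 * g) * (1 / ρ) - 1 / 80 ≤ a ^ 2 * J / 80 := by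
    have h1 : ρ * (1 / (g * ρ ^ 2) - 1) ≤ a ^ 2 * J := by
      calc ρ * (1 / (g * ρ ^ 2) - 1) ≤ ρ * J := mul_le_mul_of_nonneg_left hJgt.le hρ0.le
        _ ≤ a ^ 2 * J := mul_le_mul_of_nonneg_right ha2 (Nat.cast_nonneg _)
    have h2 : ρ * (1 / (g * ρ ^ 2) - 1) = 1 / g * (1 / ρ) - ρ := by
      field_simp
    rw [h2] at h1
    have h3 : 1 / (80 * g) * (1 / ρ) = (1 / g * (1 / ρ)) / 80 := by
      field_simp
    rw [h3]
    linarith
  rw [hK] at hthr
  linarith

end Vale.Agent.P105.H5.G
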