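import Vale.Agent.P105.Defs

/-!
# An entropy bound for the dimension of a Bernoulli convolution (helper5)

`exists_small_dim`: if the Shannon entropy of one partial sum `Y_n` is smaller than
`s * (n * log (1 / lam))`, then the Bernoulli convolution gives full mass to a Borel set of
Hausdorff dimension at most `s`.
-/

open MeasureTheory ProbabilityTheory Real Filter Topology
open scoped ENNReal NNReal

namespace Vale.Agent.P105.H5

instance : IsProbabilityMeasure coin := by
  refine ⟨?_⟩
  simp only [coin, Measure.coe_add, Measure.coe_smul, Pi.add_apply, Pi.smul_apply, measure_univ,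
    smul_eq_mul, mul_one]
  exact ENNReal.inv_two_add_inv_two

lemma abs_sgn (b : Bool) : |sgn b| = 1 := by
  unfold sgn; split_ifs <;> simp

lemma measurable_sgn : Measurable sgn := measurable_of_finite sgn

/-- The coin tossing measure. -/
noncomputable def PP : Measure (ℕ → Bool) := Measure.infinitePi (fun _ : ℕ => coin)

instance : IsProbabilityMeasure PP := by unfold PP; infer_instance

/-- The block number `j` of length `n`. -/
def blk (n j : ℕ) (ω : ℕ → Bool) : Fin n → Bool := fun i => ω (j * n + i)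

lemma measurable_blk (n j : ℕ) : Measurable (blk n j) :=
  measurable_pi_lambda _ fun _ => measurable_pi_apply _

lemma map_blk (n j : ℕ) : PP.map (blk n j) = Measure.infinitePi (fun _ : Fin n => coin) := by
  have hf : Function.Injective (fun i : Fin n => j * n + (i : ℕ)) := by
    intro a b h
    simp only [Nat.add_left_cancel_iff] at h
    exact Fin.ext h
  have := Measure.map_infinitePi_infinitePi_of_inj (P := fun _ : ℕ => coin) hf
  exact this

lemma coin_singleton (b : Bool) : coin {b} = 2⁻¹ := by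
  cases b <;> simp [coin]

lemma block_singleton (n : ℕ) (e : Fin n → Bool) :
    Measure.infinitePi (fun _ : Fin n => coin) {e} = (2⁻¹ : ℝ≥0∞) ^ n := by
  rw [Measure.infinitePi_singleton_of_fintype]
  simp [coin_singleton]

/-- The information of block `j`. -/
noncomputable def info (lam : ℝ) (n j : ℕ) (ω : ℕ → Bool) : ℝ :=
  -log (psumProb lam n (psum lam n (blk n j ω)))

lemma measurable_info (lam : ℝ) (n j : ℕ) : Measurable (info lam n j) :=
  (measurable_of_finite (fun e : Fin n → Bool => -log (psumProb lam n (psum lam n e)))).comp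
    (measurable_blk n j)

lemma indep_info (lam : ℝ) (n : ℕ) {i j : ℕ} (hij : i ≠ j) :
    IndepFun (info lam n i) (info lam n j) PP := by
  classical
  have h0 : iIndepFun (fun (i : ℕ) (ω : ℕ → Bool) => ω i) PP :=
    iIndepFun_infinitePi (P := fun _ : ℕ => coin) (X := fun _ b => b) (fun _ => measurable_id)
  let S : ℕ → Finset ℕ := fun j => Finset.univ.image (fun k : Fin n => j * n + (k : ℕ))
  have hmem : ∀ j : ℕ, ∀ k : Fin n, j * n + (k : ℕ) ∈ S j := fun j k =>
    Finset.mem_image_of_mem _ (Finset.mem_univ _)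
  have hdis : Disjoint (S i) (S j) := by
    rw [Finset.disjoint_left]
    intro x hx hx'
    simp only [S, Finset.mem_image, Finset.mem_univ, true_and] at hx hx'
    obtain ⟨a, rfl⟩ := hx
    obtain ⟨b, hb⟩ := hx'
    have ha := a.isLt
    have hb' := b.isLt
    have h1 : (i * n + (a : ℕ)) / n = i := by
      rw [mul_comm, Nat.mul_add_div (by omega), Nat.div_eq_of_lt ha, add_zero]
    have h2 : (j * n + (b : ℕ)) / n = j := by
      rw [mul_comm, Nat.mul_add_div (by omega), Nat.div_eq_of_lt hb', add_zero]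
    rw [hb, h1] at h2
    exact hij h2
  have h1 := h0.indepFun_finset (S i) (S j) hdis (fun i => measurable_pi_apply i)
  let g : ∀ j : ℕ, ((k : S j) → Bool) → ℝ := fun j r =>
    -log (psumProb lam n (psum lam n (fun k : Fin n => r ⟨j * n + k, hmem j k⟩)))
  exact h1.comp (φ := g i) (ψ := g j) (measurable_of_finite _) (measurable_of_finite _)

lemma ident_info (lam : ℝ) (n j : ℕ) : IdentDistrib (info lam n j) (info lam n 0) PP PP := by
  have h : IdentDistrib (blk n j) (blk n 0) PP PP :=
    ⟨(measurable_blk n j).aemeasurable, (measurable_blk n 0).aemeasurable, by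
      rw [map_blk, map_blk]⟩
  exact h.comp (measurable_of_finite (fun e : Fin n → Bool =>
    -log (psumProb lam n (psum lam n e))))

lemma psumProb_pos (lam : ℝ) (n : ℕ) (e : Fin n → Bool) :
    0 < psumProb lam n (psum lam n e) := by
  unfold psumProb
  apply div_pos _ (by positivity)
  have : 0 < (Finset.univ.filter fun e' : Fin n → Bool => psum lam n e' = psum lam n e).card :=
    Finset.card_pos.mpr ⟨e, by simp⟩
  exact_mod_cast this

lemma psumProb_nonneg (lam : ℝ) (n : ℕ) (x : ℝ) : 0 ≤ psumProb lam n x := by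
  unfold psumProb; positivity

/-- The set of values of the `n`-th partial sum. -/
noncomputable def vals (lam : ℝ) (n : ℕ) : Finset ℝ := Finset.univ.image (psum lam n)

lemma sum_psumProb (lam : ℝ) (n : ℕ) (f : ℝ → ℝ) :
    ∑ x ∈ vals lam n, psumProb lam n x * f x = (∑ e : Fin n → Bool, f (psum lam n e)) / 2 ^ n := by
  classical
  unfold vals psumProb
  have h := Finset.sum_comp (s := (Finset.univ : Finset (Fin n → Bool))) f (psum lam n)
  rw [h, Finset.sum_div]
  refine Finset.sum_congr rfl fun x _ => ?_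
  rw [nsmul_eq_mul]
  ring

lemma sum_psumProb_one (lam : ℝ) (n : ℕ) : ∑ x ∈ vals lam n, psumProb lam n x = 1 := by
  have h := sum_psumProb lam n (fun _ => 1)
  simp only [mul_one, Finset.sum_const, Finset.card_univ, Fintype.card_fun, Fintype.card_bool,
    Fintype.card_fin, nsmul_eq_mul] at h
  rw [h]
  push_cast
  exact div_self (by positivity)

lemma integrable_info (lam : ℝ) (n : ℕ) : Integrable (info lam n 0) PP := by
  have h : Integrable (fun e : Fin n → Bool => -log (psumProb lam n (psum lam n e)))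
      (PP.map (blk n 0)) := by
    rw [map_blk]
    exact Integrable.of_finite
  exact h.comp_measurable (measurable_blk n 0)

lemma integral_info (lam : ℝ) (n : ℕ) : ∫ ω, info lam n 0 ω ∂PP = psumEntropy lam n := by
  have h1 : ∫ ω, info lam n 0 ω ∂PP =
      ∫ e, -log (psumProb lam n (psum lam n e)) ∂(PP.map (blk n 0)) := by
    rw [integral_map (measurable_blk n 0).aemeasurable
      (measurable_of_finite _).aestronglyMeasurable]
    rfl
  rw [h1, map_blk, integral_fintype (hf := Integrable.of_finite)]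
  have h2 : ∀ e : Fin n → Bool,
      (Measure.infinitePi (fun _ : Fin n => coin)).real {e} = 1 / 2 ^ n := by
    intro e
    rw [measureReal_def, block_singleton]
    simp
  simp only [h2, smul_eq_mul]
  rw [← Finset.mul_sum]
  have h3 := sum_psumProb lam n (fun x => -log (psumProb lam n x))
  rw [psumEntropy]
  have h4 : ∑ x ∈ Finset.univ.image (psum lam n), negMulLog (psumProb lam n x) =
      ∑ x ∈ vals lam n, psumProb lam n x * (-log (psumProb lam n x)) := by
    refine Finset.sum_congr rfl fun x _ => ?_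
    rw [negMulLog]; ring
  rw [h4, h3]
  ring

/-- The strong law of large numbers for the information of the blocks. -/
lemma slln (lam : ℝ) (n : ℕ) : ∀ᵐ ω ∂PP,
    Tendsto (fun m : ℕ => (∑ j ∈ Finset.range m, info lam n j ω) / m) atTop
      (𝓝 (psumEntropy lam n)) := by
  have h := strong_law_ae_real (μ := PP) (info lam n) (integrable_info lam n)
    (fun i j hij => indep_info lam n hij) (ident_info lam n)
  rw [integral_info] at h
  exact h

/-! ### Good words -/

/-- Words of `m` values of large probability. -/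
noncomputable def words (lam : ℝ) (n : ℕ) (h : ℝ) (m : ℕ) : Finset (Fin m → ℝ) :=
  (Fintype.piFinset (fun _ : Fin m => vals lam n)).filter
    (fun v => exp (-(m * h)) ≤ ∏ i, psumProb lam n (v i))

lemma card_words (lam : ℝ) (n : ℕ) (h : ℝ) (m : ℕ) :
    ((words lam n h m).card : ℝ) ≤ exp (m * h) := by
  classical
  have h1 : ∑ v ∈ Fintype.piFinset (fun _ : Fin m => vals lam n), ∏ i, psumProb lam n (v i) = 1 := by
    rw [← Finset.prod_univ_sum]
    simp [sum_psumProb_one]
  have h2 : ((words lam n h m).card : ℝ) * exp (-(m * h)) ≤ 1 := by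
    rw [← h1]
    calc ((words lam n h m).card : ℝ) * exp (-(m * h)) = ∑ _v ∈ words lam n h m, exp (-(m * h)) := by
          rw [Finset.sum_const, nsmul_eq_mul]
      _ ≤ ∑ v ∈ words lam n h m, ∏ i, psumProb lam n (v i) :=
          Finset.sum_le_sum fun v hv => (Finset.mem_filter.mp hv).2
      _ ≤ _ := Finset.sum_le_sum_of_subset_of_nonneg (Finset.filter_subset _ _)
          fun v _ _ => Finset.prod_nonneg fun i _ => psumProb_nonneg _ _ _
  have h3 : exp (m * h) = 1 / exp (-(m * h)) := by rw [exp_neg]; simp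
  rw [h3, le_div_iff₀ (exp_pos _)]
  exact h2

/-- The centre of a word. -/
noncomputable def cen (lam : ℝ) (n m : ℕ) (v : Fin m → ℝ) : ℝ :=
  ∑ i : Fin m, lam ^ ((i : ℕ) * n) * v i

/-- The series. -/
noncomputable def ser (lam : ℝ) (ω : ℕ → Bool) : ℝ := ∑' k : ℕ, sgn (ω k) * lam ^ k

lemma summable_ser {lam : ℝ} (h0 : 0 < lam) (h1 : lam < 1) (ω : ℕ → Bool) :
    Summable fun k : ℕ => sgn (ω k) * lam ^ k := by
  refine Summable.of_norm_bounded (g := fun k : ℕ => lam ^ k)
    (summable_geometric_of_lt_one h0.le h1) fun k => ?_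
  rw [norm_mul, Real.norm_eq_abs, abs_sgn, one_mul, norm_pow, Real.norm_eq_abs, abs_of_pos h0]

lemma measurable_ser {lam : ℝ} (h0 : 0 < lam) (h1 : lam < 1) : Measurable (ser lam) := by
  refine measurable_of_tendsto_metrizable (f := fun N ω => ∑ k ∈ Finset.range N, sgn (ω k) * lam ^ k)
    (fun N => ?_) ?_
  · exact Finset.measurable_sum _ fun k _ =>
      ((measurable_sgn.comp (measurable_pi_apply k)).mul_const _)
  · rw [tendsto_pi_nhds]
    intro ω
    exact (summable_ser h0 h1 ω).hasSum.tendsto_sum_nat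

lemma sum_blocks (lam : ℝ) (n m : ℕ) (ω : ℕ → Bool) :
    ∑ k ∈ Finset.range (m * n), sgn (ω k) * lam ^ k =
      ∑ j ∈ Finset.range m, lam ^ (j * n) * psum lam n (blk n j ω) := by
  induction m with
  | zero => simp
  | succ m ih =>
    rw [Finset.sum_range_succ, ← ih, add_mul, one_mul, Finset.sum_range_add, psum, Finset.mul_sum,
      Finset.sum_range fun k => sgn (ω (m * n + k)) * lam ^ (m * n + k)]
    congr 1
    refine Finset.sum_congr rfl fun i _ => ?_
    rw [pow_add, blk]
    ring

lemma abs_tail_le {lam : ℝ} (h0 : 0 < lam) (h1 : lam < 1) (N : ℕ) (ω : ℕ → Bool) :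
    |ser lam ω - ∑ k ∈ Finset.range N, sgn (ω k) * lam ^ k| ≤ lam ^ N / (1 - lam) := by
  have hs := summable_ser h0 h1 ω
  have e : ser lam ω - ∑ k ∈ Finset.range N, sgn (ω k) * lam ^ k =
      ∑' k : ℕ, sgn (ω (k + N)) * lam ^ (k + N) := by
    rw [ser, ← hs.sum_add_tsum_nat_add N]
    ring
  rw [e]
  have hg : HasSum (fun k : ℕ => lam ^ (k + N)) (lam ^ N / (1 - lam)) := by
    have := (hasSum_geometric_of_lt_one h0.le h1).mul_left (lam ^ N)
    rw [← div_eq_mul_inv] at this
    refine this.congr_fun ?_ |> fun h => h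
    intro k
    rw [pow_add, mul_comm]
  refine (Real.norm_eq_abs _ ▸ tsum_of_norm_bounded hg fun k => ?_)
  rw [norm_mul, Real.norm_eq_abs, abs_sgn, one_mul, norm_pow, Real.norm_eq_abs, abs_of_pos h0]

/-- The neighbourhood of the good words. -/
noncomputable def nbh (lam : ℝ) (n : ℕ) (h : ℝ) (m : ℕ) : Set ℝ :=
  ⋃ v ∈ words lam n h m, Metric.closedBall (cen lam n m v) (lam ^ (m * n) / (1 - lam))

lemma isClosed_nbh (lam : ℝ) (n : ℕ) (h : ℝ) (m : ℕ) : IsClosed (nbh lam n h m) :=
  (words lam n h m).finite_toSet.isClosed_biUnion fun _ _ => Metric.isClosed_closedBall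

/-- The set of full measure. -/
noncomputable def AA (lam : ℝ) (n : ℕ) (h : ℝ) : Set ℝ := ⋃ M : ℕ, ⋂ m ≥ M, nbh lam n h m

lemma measurableSet_AA (lam : ℝ) (n : ℕ) (h : ℝ) : MeasurableSet (AA lam n h) :=
  MeasurableSet.iUnion fun _ => (isClosed_iInter fun _ => isClosed_iInter fun _ =>
    isClosed_nbh lam n h _).measurableSet

lemma ser_mem_nbh {lam : ℝ} (h0 : 0 < lam) (h1 : lam < 1) {n : ℕ} {h : ℝ} {m : ℕ} {ω : ℕ → Bool}
    (hω : ∑ j ∈ Finset.range m, info lam n j ω ≤ m * h) : ser lam ω ∈ nbh lam n h m := by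
  classical
  set v : Fin m → ℝ := fun i => psum lam n (blk n i ω) with hv
  have hmem : v ∈ words lam n h m := by
    refine Finset.mem_filter.mpr ⟨Fintype.mem_piFinset.mpr fun i =>
      Finset.mem_image_of_mem _ (Finset.mem_univ _), ?_⟩
    have e : ∏ i : Fin m, psumProb lam n (v i) = exp (-∑ j ∈ Finset.range m, info lam n j ω) := by
      rw [← Finset.sum_neg_distrib, exp_sum, Finset.prod_range]
      refine Finset.prod_congr rfl fun i _ => ?_
      rw [info, neg_neg, exp_log (psumProb_pos lam n _)]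
    rw [e]
    exact exp_le_exp.mpr (by linarith)
  refine Set.mem_biUnion hmem ?_
  rw [Metric.mem_closedBall, Real.dist_eq]
  have e2 : cen lam n m v = ∑ k ∈ Finset.range (m * n), sgn (ω k) * lam ^ k := by
    rw [sum_blocks, cen, Finset.sum_range fun j => lam ^ (j * n) * psum lam n (blk n j ω)]
  rw [e2]
  exact abs_tail_le h0 h1 _ ω

lemma ae_mem_AA {lam : ℝ} (h0 : 0 < lam) (h1 : lam < 1) {n : ℕ} {h : ℝ}
    (hh : psumEntropy lam n < h) : ∀ᵐ ω ∂PP, ser lam ω ∈ AA lam n h := by
  filter_upwards [slln lam n] with ω hω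
  have h2 := hω.eventually_lt_const hh
  obtain ⟨M, hM⟩ := eventually_atTop.mp h2
  refine Set.mem_iUnion.mpr ⟨max M 1, ?_⟩
  refine Set.mem_iInter₂.mpr fun m hm => ?_
  apply ser_mem_nbh h0 h1
  have hm1 : 1 ≤ m := (le_max_right _ _).trans hm
  have hmpos : (0 : ℝ) < m := by exact_mod_cast hm1
  have h3 := hM m ((le_max_left _ _).trans hm)
  rw [div_lt_iff₀ hmpos] at h3
  linarith

lemma hausdorff_zero {lam : ℝ} (h0 : 0 < lam) (h1 : lam < 1) {n : ℕ} (hn : 1 ≤ n) {h : ℝ}
    {s : ℝ≥0} (hs : h < s * (n * log (1 / lam))) (M : ℕ) :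
    Measure.hausdorffMeasure (s : ℝ) (⋂ m ≥ M, nbh lam n h m) = 0 := by
  classical
  set R : ℕ → ℝ := fun m => 2 * (lam ^ (m * n) / (1 - lam)) with hR
  have h1l : 0 < 1 - lam := by linarith
  have hR0 : ∀ m, 0 ≤ R m := fun m => by
    simp only [hR]; positivity
  have hRlim : Tendsto R atTop (𝓝 0) := by
    have h2 : Tendsto (fun m : ℕ => (lam ^ n) ^ m) atTop (𝓝 0) :=
      tendsto_pow_atTop_nhds_zero_of_lt_one (by positivity)
        (pow_lt_one₀ h0.le h1 (by omega))
    have h3 := (h2.div_const (1 - lam)).const_mul 2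
    simp only [zero_div, mul_zero] at h3
    refine h3.congr fun m => ?_
    simp only [hR]
    rw [← pow_mul, mul_comm n m]
  have key := Measure.hausdorffMeasure_le_liminf_sum (β := ℕ) (X := ℝ)
    (ι := fun m => ↥(words lam n h m)) (s : ℝ) (⋂ m ≥ M, nbh lam n h m) (l := atTop)
    (fun m => ENNReal.ofReal (R m)) (by
      have := ENNReal.tendsto_ofReal hRlim
      simpa using this)
    (fun m v => Metric.closedBall (cen lam n m v.1) (lam ^ (m * n) / (1 - lam)))
    (Eventually.of_forall fun m v => by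
      rw [Real.closedBall_eq_Icc, Real.ediam_Icc]
      apply ENNReal.ofReal_le_ofReal
      simp only [hR]
      linarith)
    ((eventually_ge_atTop M).mono fun m hm => by
      intro x hx
      have h2 := Set.mem_iInter₂.mp hx m hm
      simp only [nbh, Set.mem_iUnion] at h2
      obtain ⟨v, hv, hxv⟩ := h2
      exact Set.mem_iUnion.mpr ⟨⟨v, hv⟩, hxv⟩)
  refine le_antisymm (key.trans ?_) bot_le
  -- the upper bound
  set c : ℝ := s * (n * log (1 / lam)) - h with hc
  have hcpos : 0 < c := by simp only [hc]; linarith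
  have hb : ∀ m : ℕ, ∑ v : ↥(words lam n h m),
      Metric.ediam (Metric.closedBall (cen lam n m v.1) (lam ^ (m * n) / (1 - lam))) ^ (s : ℝ) ≤
      ENNReal.ofReal ((2 / (1 - lam)) ^ (s : ℝ) * exp (-c * m)) := by
    intro m
    have h2 : ∀ v : ↥(words lam n h m),
        Metric.ediam (Metric.closedBall (cen lam n m v.1) (lam ^ (m * n) / (1 - lam))) ^ (s : ℝ) =
        ENNReal.ofReal ((R m) ^ (s : ℝ)) := by
      intro v
      rw [Real.closedBall_eq_Icc, Real.ediam_Icc, ENNReal.ofReal_rpow_of_nonneg _ (NNReal.coe_nonneg s)]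
      · congr 2
        simp only [hR]; ring
      · have : 0 ≤ lam ^ (m * n) / (1 - lam) := by positivity
        linarith
    rw [Finset.sum_congr rfl fun v _ => h2 v, Finset.sum_const, Finset.card_univ,
      Fintype.card_coe, nsmul_eq_mul, ← ENNReal.ofReal_natCast,
      ← ENNReal.ofReal_mul (Nat.cast_nonneg _)]
    apply ENNReal.ofReal_le_ofReal
    have h3 : (R m) ^ (s : ℝ) = (2 / (1 - lam)) ^ (s : ℝ) * exp (-(s * (n * log (1 / lam))) * m) := by
      have e1 : R m = 2 / (1 - lam) * exp (-(n * log (1 / lam)) * m) := by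
        simp only [hR]
        have e2 : exp (-(n * log (1 / lam)) * m) = lam ^ (m * n) := by
          rw [one_div, log_inv]
          have : -(n * -log lam) * (m : ℝ) = ((m * n : ℕ) : ℝ) * log lam := by push_cast; ring
          rw [this, exp_nat_mul, exp_log h0]
        rw [e2]; ring
      rw [e1, mul_rpow (by positivity) (exp_pos _).le, ← exp_mul]
      congr 2
      ring
    rw [h3]
    calc ((words lam n h m).card : ℝ) *
          ((2 / (1 - lam)) ^ (s : ℝ) * exp (-(s * (n * log (1 / lam))) * m))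
        ≤ exp (m * h) * ((2 / (1 - lam)) ^ (s : ℝ) * exp (-(s * (n * log (1 / lam))) * m)) :=
          mul_le_mul_of_nonneg_right (card_words lam n h m) (by positivity)
      _ = (2 / (1 - lam)) ^ (s : ℝ) * (exp (m * h) * exp (-(s * (n * log (1 / lam))) * m)) := by
          ring
      _ = _ := by
          rw [← exp_add]
          congr 2
          simp only [hc]
          ring
  have hlim : Tendsto (fun m : ℕ => ENNReal.ofReal ((2 / (1 - lam)) ^ (s : ℝ) * exp (-c * m)))
      atTop (𝓝 0) := by
    have h4 : Tendsto (fun m : ℕ => exp (-c * m)) atTop (𝓝 0) := by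
      apply tendsto_exp_atBot.comp
      exact (tendsto_natCast_atTop_atTop).const_mul_atTop_of_neg (by linarith)
    have h5 := ENNReal.tendsto_ofReal (h4.const_mul ((2 / (1 - lam)) ^ (s : ℝ)))
    simpa using h5
  calc liminf (fun m : ℕ => ∑ v : ↥(words lam n h m),
        Metric.ediam (Metric.closedBall (cen lam n m v.1) (lam ^ (m * n) / (1 - lam))) ^ (s : ℝ)) atTop
      ≤ liminf (fun m : ℕ => ENNReal.ofReal ((2 / (1 - lam)) ^ (s : ℝ) * exp (-c * m))) atTop :=
        liminf_le_liminf (Eventually.of_forall hb)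
    _ = 0 := hlim.liminf_eq

/-- **Entropy bound for the dimension of the Bernoulli convolution.** -/
theorem exists_small_dim {lam : ℝ} (h0 : 0 < lam) (h1 : lam < 1) {n : ℕ} (hn : 1 ≤ n)
    {s : ℝ≥0} (hs : psumEntropy lam n < s * (n * log (1 / lam))) :
    ∃ A : Set ℝ, MeasurableSet A ∧ bernConv lam Aᶜ = 0 ∧ dimH A ≤ s := by
  obtain ⟨h, hh1, hh2⟩ := exists_between hs
  refine ⟨AA lam n h, measurableSet_AA lam n h, ?_, ?_⟩
  · have e : bernConv lam = PP.map (ser lam) := rfl
    rw [e, Measure.map_apply (measurable_ser h0 h1) (measurableSet_AA lam n h).compl]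
    exact ae_mem_AA h0 h1 hh1
  · rw [AA, dimH_iUnion]
    refine iSup_le fun M => ?_
    apply dimH_le_of_hausdorffMeasure_ne_top
    rw [hausdorff_zero h0 h1 hn hh2 M]
    exact ENNReal.zero_ne_top

/-- A single `n` with entropy below `n log (1 / lam)` gives a carrier of dimension `< 1`. -/
theorem exists_dim_lt_one {lam : ℝ} (h0 : 0 < lam) (h1 : lam < 1) {n : ℕ} (hn : 1 ≤ n)
    (hs : psumEntropy lam n < n * log (1 / lam)) :
    ∃ A : Set ℝ, MeasurableSet A ∧ bernConv lam A = 1 ∧ dimH A < 1 := by
  have hlog : 0 < n * log (1 / lam) := by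
    have : 0 < log (1 / lam) := log_pos (by rw [one_div]; exact (one_lt_inv₀ h0).mpr h1)
    have hn' : (0 : ℝ) < n := by exact_mod_cast hn
    positivity
  have hH : 0 ≤ psumEntropy lam n := by
    unfold psumEntropy
    refine Finset.sum_nonneg fun x hx => negMulLog_nonneg (psumProb_nonneg _ _ _) ?_
    have h2 := sum_psumProb_one lam n
    have h3 := Finset.single_le_sum (f := psumProb lam n) (s := vals lam n)
      (fun y _ => psumProb_nonneg lam n y) hx
    linarith
  obtain ⟨t, ht1, ht2⟩ := exists_between ((div_lt_one hlog).mpr hs)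
  have ht0 : 0 ≤ t := (div_nonneg hH hlog.le).trans ht1.le
  lift t to ℝ≥0 using ht0
  obtain ⟨A, hA, hA0, hAd⟩ := exists_small_dim h0 h1 hn (s := t) (by
    rw [div_lt_iff₀ hlog] at ht1
    exact ht1)
  refine ⟨A, hA, ?_, lt_of_le_of_lt hAd ?_⟩
  · have : IsProbabilityMeasure (bernConv lam) := by
      have e : bernConv lam = PP.map (ser lam) := rfl
      rw [e]
      exact Measure.isProbabilityMeasure_map (measurable_ser h0 h1).aemeasurable
    have h4 := prob_add_prob_compl (μ := bernConv lam) hA
    rw [hA0, add_zero] at h4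
    exact h4
  · exact_mod_cast ht2

end Vale.Agent.P105.H5
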