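import Vale.Agent.P105.Defs
import Vale.Agent.P105.H5.Dim
import Vale.Agent.P105.H5.GGibbs

/-!
# The fair coin as a special case of the general digit law (helper5)
-/

open MeasureTheory ProbabilityTheory Real Filter Topology
open scoped ENNReal NNReal

namespace Vale.Agent.P105.H5

lemma coin_real (b : Bool) : coin.real {b} = 1 / 2 := by
  rw [measureReal_def, coin_singleton]
  simp

lemma wt_coin (n : ℕ) (e : Fin n → Bool) : G.wt coin n e = 1 / 2 ^ n := by
  unfold G.wt
  simp [coin_real]

lemma gsum_sgn (lam : ℝ) (n : ℕ) : G.gsum sgn lam n = psum lam n := rfl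

lemma gprob_coin (lam : ℝ) (n : ℕ) (x : ℝ) : G.gprob coin sgn lam n x = psumProb lam n x := by
  classical
  unfold G.gprob psumProb
  simp only [wt_coin, Finset.sum_const, nsmul_eq_mul, gsum_sgn]
  rw [mul_one_div]
  congr

lemma vals_sgn (lam : ℝ) (n : ℕ) : G.vals sgn lam n = Finset.univ.image (psum lam n) := by
  unfold G.vals
  rw [gsum_sgn]

lemma psumEntropy_eq (lam : ℝ) (n : ℕ) : psumEntropy lam n = G.gent coin sgn lam n := by
  unfold psumEntropy G.gent
  rw [vals_sgn]
  simp only [gprob_coin]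

lemma garsiaEntropy_eq (lam : ℝ) : garsiaEntropy lam = G.garsia coin sgn lam := by
  unfold garsiaEntropy G.garsia
  simp only [psumEntropy_eq]

lemma bernConv_eq (lam : ℝ) : bernConv lam = G.gssm coin sgn lam := rfl

lemma coin_pos (b : Bool) : 0 < coin.real {b} := by rw [coin_real]; norm_num

/-- Gibbs' inequality for the fair coin. -/
theorem psum_gibbs (lam : ℝ) (n : ℕ) (F : ℝ → ℝ) :
    psumEntropy lam n ≤ log (∑ x ∈ Finset.univ.image (psum lam n), exp (F x)) -
      (∑ e : Fin n → Bool, F (psum lam n e)) / 2 ^ n := by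
  have h := G.gibbs coin sgn lam n F
  rw [← psumEntropy_eq, vals_sgn] at h
  simp only [wt_coin, gsum_sgn] at h
  rw [← Finset.mul_sum] at h
  have e : (∑ e : Fin n → Bool, F (psum lam n e)) / 2 ^ n =
    1 / 2 ^ n * ∑ e : Fin n → Bool, F (psum lam n e) := by ring
  rw [e]
  exact h

/-- The Garsia entropy is at most `H (Y_n) / n`. -/
theorem garsiaEntropy_le (lam : ℝ) {n : ℕ} (hn : 1 ≤ n) :
    garsiaEntropy lam ≤ psumEntropy lam n / n := by
  rw [garsiaEntropy_eq, psumEntropy_eq]
  exact G.garsia_le coin sgn coin_pos lam hn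

/-- One partial sum suffices for `garsiaEntropy lam < log (1 / lam)`. -/
theorem garsiaEntropy_lt {lam : ℝ} {n : ℕ} (hn : 1 ≤ n)
    (hs : psumEntropy lam n < n * log (1 / lam)) : garsiaEntropy lam < log (1 / lam) := by
  rw [garsiaEntropy_eq]
  rw [psumEntropy_eq] at hs
  exact G.garsia_lt coin sgn coin_pos hn hs

end Vale.Agent.P105.H5
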