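import Mathlib

/-!
# An entropy bound for the dimension of a homogeneous self-similar measure (helper5)

The same as `Vale.Agent.P105.H5.Dim`, for an arbitrary finite digit law: `P` is a probability
measure on a finite type `ι` with positive masses, `d : ι → ℝ` the digits, and the measure is the
law of `∑' k, d (ω k) * lam ^ k` for i.i.d. `ω k` with law `P`.

`exists_dim_lt_one`: if the Shannon entropy `gent P d lam n` of ONE partial sum is smaller than
`n * log (1 / lam)`, then the measure gives full mass to a Borel set of Hausdorff dimension `< 1`.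
-/

open MeasureTheory ProbabilityTheory Real Filter Topology
open scoped ENNReal NNReal

namespace Vale.Agent.P105.H5.G

variable {ι : Type*} [Fintype ι] [MeasurableSpace ι] [MeasurableSingletonClass ι]
  (P : Measure ι) [IsProbabilityMeasure P] (d : ι → ℝ)

/-- The `n`-th partial sum `∑_{i < n} d (e i) lam ^ i`. -/
noncomputable def gsum (lam : ℝ) (n : ℕ) (e : Fin n → ι) : ℝ := ∑ i, d (e i) * lam ^ (i : ℕ)

/-- The probability of a word of digits. -/
noncomputable def wt (n : ℕ) (e : Fin n → ι) : ℝ := ∏ i, P.real {e i}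

/-- The probability that the `n`-th partial sum equals `x`. -/
noncomputable def gprob (lam : ℝ) (n : ℕ) (x : ℝ) : ℝ :=
  ∑ e : Fin n → ι with gsum d lam n e = x, wt P n e

/-- The set of values of the `n`-th partial sum. -/
noncomputable def vals (lam : ℝ) (n : ℕ) : Finset ℝ := by
  classical exact Finset.univ.image (gsum d lam n)

/-- The Shannon entropy (natural logarithm) of the `n`-th partial sum. -/
noncomputable def gent (lam : ℝ) (n : ℕ) : ℝ :=
  ∑ x ∈ vals d lam n, negMulLog (gprob P d lam n x)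

/-- The product measure on digit sequences. -/
noncomputable def PP : Measure (ℕ → ι) := Measure.infinitePi (fun _ : ℕ => P)

instance : IsProbabilityMeasure (PP P) := by unfold PP; infer_instance

/-- The series. -/
noncomputable def ser (lam : ℝ) (ω : ℕ → ι) : ℝ := ∑' k : ℕ, d (ω k) * lam ^ k

/-- The homogeneous self-similar measure: the law of the random series
`∑ d (ω n) lam ^ n`, the `ω n` being i.i.d. with law `P`. -/
noncomputable def gssm (lam : ℝ) : Measure ℝ :=
  (Measure.infinitePi (fun _ : ℕ => P)).map (fun ω => ∑' n : ℕ, d (ω n) * lam ^ n)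

/-- The block number `j` of length `n`. -/
def blk (n j : ℕ) (ω : ℕ → ι) : Fin n → ι := fun i => ω (j * n + i)

omit [Fintype ι] [MeasurableSingletonClass ι] in
lemma measurable_blk (n j : ℕ) : Measurable (blk (ι := ι) n j) :=
  measurable_pi_lambda _ fun _ => measurable_pi_apply _

omit [Fintype ι] [MeasurableSingletonClass ι] in
lemma map_blk (n j : ℕ) : (PP P).map (blk n j) = Measure.infinitePi (fun _ : Fin n => P) := by
  have hf : Function.Injective (fun i : Fin n => j * n + (i : ℕ)) := by
    intro a b h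
    simp only [Nat.add_left_cancel_iff] at h
    exact Fin.ext h
  have := Measure.map_infinitePi_infinitePi_of_inj (P := fun _ : ℕ => P) hf
  exact this

omit [Fintype ι] in
lemma block_singleton (n : ℕ) (e : Fin n → ι) :
    (Measure.infinitePi (fun _ : Fin n => P)).real {e} = wt P n e := by
  rw [measureReal_def, Measure.infinitePi_singleton_of_fintype, ENNReal.toReal_prod]
  rfl

/-- The information of block `j`. -/
noncomputable def info (lam : ℝ) (n j : ℕ) (ω : ℕ → ι) : ℝ :=
  -log (gprob P d lam n (gsum d lam n (blk n j ω)))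

omit [IsProbabilityMeasure P] in
lemma measurable_info (lam : ℝ) (n j : ℕ) : Measurable (info P d lam n j) :=
  (measurable_of_finite (fun e : Fin n → ι => -log (gprob P d lam n (gsum d lam n e)))).comp
    (measurable_blk n j)

lemma indep_info (lam : ℝ) (n : ℕ) {i j : ℕ} (hij : i ≠ j) :
    IndepFun (info P d lam n i) (info P d lam n j) (PP P) := by
  classical
  have h0 : iIndepFun (fun (i : ℕ) (ω : ℕ → ι) => ω i) (PP P) :=
    iIndepFun_infinitePi (P := fun _ : ℕ => P) (X := fun _ b => b) (fun _ => measurable_id)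
  let S : ℕ → Finset ℕ := fun j => Finset.univ.image (fun k : Fin n => j * n + (k : ℕ))
  have hmem : ∀ j : ℕ, ∀ k : Fin n, j * n + (k : ℕ) ∈ S j := fun j k =>
    Finset.mem_image_of_mem _ (Finset.mem_univ _)
  have hdis : Disjoint (S i) (S j) := by
    rw [Finset.disjoint_left]
    intro x hx hx'
    simp only [S, Finset.mem_image, Finset.mem_univ, true_and] at hx hx'
    obtain ⟨a, rfl⟩ := hx
    obtain ⟨b, hb⟩ := hx'
    have ha := a.isLt
    have hb' := b.isLt
    have h1 : (i * n + (a : ℕ)) / n = i := by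
      rw [mul_comm, Nat.mul_add_div (by omega), Nat.div_eq_of_lt ha, add_zero]
    have h2 : (j * n + (b : ℕ)) / n = j := by
      rw [mul_comm, Nat.mul_add_div (by omega), Nat.div_eq_of_lt hb', add_zero]
    rw [hb, h1] at h2
    exact hij h2
  have h1 := h0.indepFun_finset (S i) (S j) hdis (fun i => measurable_pi_apply i)
  let g : ∀ j : ℕ, ((k : S j) → ι) → ℝ := fun j r =>
    -log (gprob P d lam n (gsum d lam n (fun k : Fin n => r ⟨j * n + k, hmem j k⟩)))
  exact h1.comp (φ := g i) (ψ := g j) (measurable_of_finite _) (measurable_of_finite _)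

lemma ident_info (lam : ℝ) (n j : ℕ) :
    IdentDistrib (info P d lam n j) (info P d lam n 0) (PP P) (PP P) := by
  have h : IdentDistrib (blk n j) (blk n 0) (PP P) (PP P) :=
    ⟨(measurable_blk n j).aemeasurable, (measurable_blk n 0).aemeasurable, by
      rw [map_blk, map_blk]⟩
  exact h.comp (measurable_of_finite (fun e : Fin n → ι =>
    -log (gprob P d lam n (gsum d lam n e))))

omit [MeasurableSingletonClass ι] [IsProbabilityMeasure P] [Fintype ι] in
lemma wt_pos (hP : ∀ i, 0 < P.real {i}) (n : ℕ) (e : Fin n → ι) : 0 < wt P n e :=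
  Finset.prod_pos fun i _ => hP (e i)

omit [MeasurableSingletonClass ι] [IsProbabilityMeasure P] [Fintype ι] in
lemma wt_nonneg (n : ℕ) (e : Fin n → ι) : 0 ≤ wt P n e :=
  Finset.prod_nonneg fun _ _ => measureReal_nonneg

omit [MeasurableSingletonClass ι] [IsProbabilityMeasure P] in
lemma gprob_pos (hP : ∀ i, 0 < P.real {i}) (lam : ℝ) (n : ℕ) (e : Fin n → ι) :
    0 < gprob P d lam n (gsum d lam n e) := by
  unfold gprob
  exact Finset.sum_pos (fun e' _ => wt_pos P hP n e') ⟨e, by simp⟩

omit [MeasurableSingletonClass ι] [IsProbabilityMeasure P] in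
lemma gprob_nonneg (lam : ℝ) (n : ℕ) (x : ℝ) : 0 ≤ gprob P d lam n x :=
  Finset.sum_nonneg fun _ _ => wt_nonneg P n _

omit [MeasurableSpace ι] [MeasurableSingletonClass ι] in
lemma mem_vals (lam : ℝ) (n : ℕ) (e : Fin n → ι) : gsum d lam n e ∈ vals d lam n := by
  classical
  unfold vals
  exact Finset.mem_image_of_mem _ (Finset.mem_univ _)

omit [MeasurableSingletonClass ι] [IsProbabilityMeasure P] in
lemma sum_gprob (lam : ℝ) (n : ℕ) (f : ℝ → ℝ) :
    ∑ x ∈ vals d lam n, gprob P d lam n x * f x =
      ∑ e : Fin n → ι, wt P n e * f (gsum d lam n e) := by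
  classical
  have h := Finset.sum_fiberwise_of_maps_to (s := (Finset.univ : Finset (Fin n → ι)))
    (t := vals d lam n) (g := gsum d lam n) (fun e _ => mem_vals d lam n e)
    (fun e => wt P n e * f (gsum d lam n e))
  rw [← h]
  refine Finset.sum_congr rfl fun x _ => ?_
  rw [gprob, Finset.sum_mul]
  refine Finset.sum_congr ?_ fun e he => ?_
  · ext e; simp
  · rw [(Finset.mem_filter.mp he).2]

lemma sum_wt (n : ℕ) : ∑ e : Fin n → ι, wt P n e = 1 := by
  classical
  have h := Finset.prod_univ_sum (fun _ : Fin n => (Finset.univ : Finset ι))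
    (fun _ i => P.real {i})
  have h1 : ∑ i : ι, P.real {i} = 1 := by
    have := sum_measureReal_singleton (μ := P) (Finset.univ : Finset ι)
    rw [this]
    simp
  rw [Fintype.piFinset_univ] at h
  simp only [h1, Finset.prod_const_one] at h
  exact h.symm

lemma sum_gprob_one (lam : ℝ) (n : ℕ) : ∑ x ∈ vals d lam n, gprob P d lam n x = 1 := by
  have h := sum_gprob P d lam n (fun _ => 1)
  simp only [mul_one] at h
  rw [h, sum_wt]

lemma integrable_info (lam : ℝ) (n : ℕ) : Integrable (info P d lam n 0) (PP P) := by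
  have h : Integrable (fun e : Fin n → ι => -log (gprob P d lam n (gsum d lam n e)))
      ((PP P).map (blk n 0)) := by
    rw [map_blk]
    exact Integrable.of_finite
  exact h.comp_measurable (measurable_blk n 0)

lemma integral_info (lam : ℝ) (n : ℕ) : ∫ ω, info P d lam n 0 ω ∂(PP P) = gent P d lam n := by
  have h1 : ∫ ω, info P d lam n 0 ω ∂(PP P) =
      ∫ e, -log (gprob P d lam n (gsum d lam n e)) ∂((PP P).map (blk n 0)) := by
    rw [integral_map (measurable_blk n 0).aemeasurable
      (measurable_of_finite _).aestronglyMeasurable]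
    rfl
  rw [h1, map_blk, integral_fintype (hf := Integrable.of_finite)]
  simp only [block_singleton, smul_eq_mul]
  have h3 := sum_gprob P d lam n (fun x => -log (gprob P d lam n x))
  rw [gent]
  have h4 : ∑ x ∈ vals d lam n, negMulLog (gprob P d lam n x) =
      ∑ x ∈ vals d lam n, gprob P d lam n x * (-log (gprob P d lam n x)) := by
    refine Finset.sum_congr rfl fun x _ => ?_
    rw [negMulLog]; ring
  rw [h4, h3]

/-- The strong law of large numbers for the information of the blocks. -/
lemma slln (lam : ℝ) (n : ℕ) : ∀ᵐ ω ∂(PP P),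
    Tendsto (fun m : ℕ => (∑ j ∈ Finset.range m, info P d lam n j ω) / m) atTop
      (𝓝 (gent P d lam n)) := by
  have h := strong_law_ae_real (μ := PP P) (info P d lam n) (integrable_info P d lam n)
    (fun i j hij => indep_info P d lam n hij) (ident_info P d lam n)
  rw [integral_info] at h
  exact h

/-! ### Good words -/

/-- Words of `m` values of large probability. -/
noncomputable def words (lam : ℝ) (n : ℕ) (h : ℝ) (m : ℕ) : Finset (Fin m → ℝ) :=
  (Fintype.piFinset (fun _ : Fin m => vals d lam n)).filter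
    (fun v => exp (-(m * h)) ≤ ∏ i, gprob P d lam n (v i))

lemma card_words (lam : ℝ) (n : ℕ) (h : ℝ) (m : ℕ) :
    ((words P d lam n h m).card : ℝ) ≤ exp (m * h) := by
  classical
  have h1 : ∑ v ∈ Fintype.piFinset (fun _ : Fin m => vals d lam n), ∏ i, gprob P d lam n (v i)
      = 1 := by
    rw [← Finset.prod_univ_sum]
    simp [sum_gprob_one]
  have h2 : ((words P d lam n h m).card : ℝ) * exp (-(m * h)) ≤ 1 := by
    rw [← h1]
    calc ((words P d lam n h m).card : ℝ) * exp (-(m * h))
          = ∑ _v ∈ words P d lam n h m, exp (-(m * h)) := by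
          rw [Finset.sum_const, nsmul_eq_mul]
      _ ≤ ∑ v ∈ words P d lam n h m, ∏ i, gprob P d lam n (v i) :=
          Finset.sum_le_sum fun v hv => (Finset.mem_filter.mp hv).2
      _ ≤ _ := Finset.sum_le_sum_of_subset_of_nonneg (Finset.filter_subset _ _)
          fun v _ _ => Finset.prod_nonneg fun i _ => gprob_nonneg _ _ _ _ _
  have h3 : exp (m * h) = 1 / exp (-(m * h)) := by rw [exp_neg]; simp
  rw [h3, le_div_iff₀ (exp_pos _)]
  exact h2

/-- The centre of a word. -/
noncomputable def cen (lam : ℝ) (n m : ℕ) (v : Fin m → ℝ) : ℝ :=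
  ∑ i : Fin m, lam ^ ((i : ℕ) * n) * v i

/-- A bound for the digits. -/
noncomputable def bd : ℝ := 1 + ∑ i, |d i|

omit [MeasurableSpace ι] [MeasurableSingletonClass ι] in
lemma bd_pos : 0 < bd d := by
  unfold bd
  have : 0 ≤ ∑ i, |d i| := Finset.sum_nonneg fun _ _ => abs_nonneg _
  linarith

omit [MeasurableSpace ι] [MeasurableSingletonClass ι] in
lemma abs_le_bd (i : ι) : |d i| ≤ bd d := by
  unfold bd
  have := Finset.single_le_sum (f := fun i => |d i|) (s := Finset.univ)
    (fun _ _ => abs_nonneg _) (Finset.mem_univ i)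
  linarith

omit [MeasurableSpace ι] [MeasurableSingletonClass ι] in
lemma summable_ser {lam : ℝ} (h0 : 0 < lam) (h1 : lam < 1) (ω : ℕ → ι) :
    Summable fun k : ℕ => d (ω k) * lam ^ k := by
  refine Summable.of_norm_bounded (g := fun k : ℕ => bd d * lam ^ k)
    ((summable_geometric_of_lt_one h0.le h1).mul_left _) fun k => ?_
  rw [norm_mul, Real.norm_eq_abs, norm_pow, Real.norm_eq_abs, abs_of_pos h0]
  exact mul_le_mul_of_nonneg_right (abs_le_bd d _) (by positivity)

lemma measurable_ser {lam : ℝ} (h0 : 0 < lam) (h1 : lam < 1) : Measurable (ser d lam) := by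
  refine measurable_of_tendsto_metrizable (f := fun N ω => ∑ k ∈ Finset.range N, d (ω k) * lam ^ k)
    (fun N => ?_) ?_
  · exact Finset.measurable_sum _ fun k _ =>
      (((measurable_of_finite d).comp (measurable_pi_apply k)).mul_const _)
  · rw [tendsto_pi_nhds]
    intro ω
    exact (summable_ser d h0 h1 ω).hasSum.tendsto_sum_nat

omit [Fintype ι] [MeasurableSpace ι] [MeasurableSingletonClass ι] in
lemma sum_blocks (lam : ℝ) (n m : ℕ) (ω : ℕ → ι) :
    ∑ k ∈ Finset.range (m * n), d (ω k) * lam ^ k =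
      ∑ j ∈ Finset.range m, lam ^ (j * n) * gsum d lam n (blk n j ω) := by
  induction m with
  | zero => simp
  | succ m ih =>
    rw [Finset.sum_range_succ, ← ih, add_mul, one_mul, Finset.sum_range_add, gsum, Finset.mul_sum,
      Finset.sum_range fun k => d (ω (m * n + k)) * lam ^ (m * n + k)]
    congr 1
    refine Finset.sum_congr rfl fun i _ => ?_
    rw [pow_add, blk]
    ring

omit [MeasurableSpace ι] [MeasurableSingletonClass ι] in
lemma abs_tail_le {lam : ℝ} (h0 : 0 < lam) (h1 : lam < 1) (N : ℕ) (ω : ℕ → ι) :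
    |ser d lam ω - ∑ k ∈ Finset.range N, d (ω k) * lam ^ k| ≤ bd d * lam ^ N / (1 - lam) := by
  have hs := summable_ser d h0 h1 ω
  have e : ser d lam ω - ∑ k ∈ Finset.range N, d (ω k) * lam ^ k =
      ∑' k : ℕ, d (ω (k + N)) * lam ^ (k + N) := by
    rw [ser, ← hs.sum_add_tsum_nat_add N]
    ring
  rw [e]
  have hg : HasSum (fun k : ℕ => bd d * lam ^ (k + N)) (bd d * lam ^ N / (1 - lam)) := by
    have := (hasSum_geometric_of_lt_one h0.le h1).mul_left (bd d * lam ^ N)
    rw [← div_eq_mul_inv] at this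
    refine this.congr_fun ?_ |> fun h => h
    intro k
    rw [pow_add]; ring
  refine (Real.norm_eq_abs _ ▸ tsum_of_norm_bounded hg fun k => ?_)
  rw [norm_mul, Real.norm_eq_abs, norm_pow, Real.norm_eq_abs, abs_of_pos h0]
  exact mul_le_mul_of_nonneg_right (abs_le_bd d _) (by positivity)

/-- The neighbourhood of the good words. -/
noncomputable def nbh (lam : ℝ) (n : ℕ) (h : ℝ) (m : ℕ) : Set ℝ :=
  ⋃ v ∈ words P d lam n h m, Metric.closedBall (cen lam n m v) (bd d * lam ^ (m * n) / (1 - lam))

omit [MeasurableSingletonClass ι] [IsProbabilityMeasure P] in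
lemma isClosed_nbh (lam : ℝ) (n : ℕ) (h : ℝ) (m : ℕ) : IsClosed (nbh P d lam n h m) :=
  (words P d lam n h m).finite_toSet.isClosed_biUnion fun _ _ => Metric.isClosed_closedBall

/-- The set of full measure. -/
noncomputable def AA (lam : ℝ) (n : ℕ) (h : ℝ) : Set ℝ := ⋃ M : ℕ, ⋂ m ≥ M, nbh P d lam n h m

omit [MeasurableSingletonClass ι] [IsProbabilityMeasure P] in
lemma measurableSet_AA (lam : ℝ) (n : ℕ) (h : ℝ) : MeasurableSet (AA P d lam n h) :=
  MeasurableSet.iUnion fun _ => (isClosed_iInter fun _ => isClosed_iInter fun _ =>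
    isClosed_nbh P d lam n h _).measurableSet

omit [MeasurableSingletonClass ι] [IsProbabilityMeasure P] in
lemma ser_mem_nbh (hP : ∀ i, 0 < P.real {i}) {lam : ℝ} (h0 : 0 < lam) (h1 : lam < 1) {n : ℕ}
    {h : ℝ} {m : ℕ} {ω : ℕ → ι}
    (hω : ∑ j ∈ Finset.range m, info P d lam n j ω ≤ m * h) :
    ser d lam ω ∈ nbh P d lam n h m := by
  classical
  set v : Fin m → ℝ := fun i => gsum d lam n (blk n i ω) with hv
  have hmem : v ∈ words P d lam n h m := by
    refine Finset.mem_filter.mpr ⟨Fintype.mem_piFinset.mpr fun i => mem_vals d lam n _, ?_⟩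
    have e : ∏ i : Fin m, gprob P d lam n (v i) =
        exp (-∑ j ∈ Finset.range m, info P d lam n j ω) := by
      rw [← Finset.sum_neg_distrib, exp_sum, Finset.prod_range]
      refine Finset.prod_congr rfl fun i _ => ?_
      rw [info, neg_neg, exp_log (gprob_pos P d hP lam n _)]
    rw [e]
    exact exp_le_exp.mpr (by linarith)
  refine Set.mem_biUnion hmem ?_
  rw [Metric.mem_closedBall, Real.dist_eq]
  have e2 : cen lam n m v = ∑ k ∈ Finset.range (m * n), d (ω k) * lam ^ k := by
    rw [sum_blocks, cen, Finset.sum_range fun j => lam ^ (j * n) * gsum d lam n (blk n j ω)]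
  rw [e2]
  exact abs_tail_le d h0 h1 _ ω

lemma ae_mem_AA (hP : ∀ i, 0 < P.real {i}) {lam : ℝ} (h0 : 0 < lam) (h1 : lam < 1) {n : ℕ} {h : ℝ}
    (hh : gent P d lam n < h) : ∀ᵐ ω ∂(PP P), ser d lam ω ∈ AA P d lam n h := by
  filter_upwards [slln P d lam n] with ω hω
  have h2 := hω.eventually_lt_const hh
  obtain ⟨M, hM⟩ := eventually_atTop.mp h2
  refine Set.mem_iUnion.mpr ⟨max M 1, ?_⟩
  refine Set.mem_iInter₂.mpr fun m hm => ?_
  apply ser_mem_nbh P d hP h0 h1
  have hm1 : 1 ≤ m := (le_max_right _ _).trans hm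
  have hmpos : (0 : ℝ) < m := by exact_mod_cast hm1
  have h3 := hM m ((le_max_left _ _).trans hm)
  rw [div_lt_iff₀ hmpos] at h3
  linarith

lemma hausdorff_zero {lam : ℝ} (h0 : 0 < lam) (h1 : lam < 1) {n : ℕ} (hn : 1 ≤ n) {h : ℝ}
    {s : ℝ≥0} (hs : h < s * (n * log (1 / lam))) (M : ℕ) :
    Measure.hausdorffMeasure (s : ℝ) (⋂ m ≥ M, nbh P d lam n h m) = 0 := by
  classical
  have hbd := bd_pos d
  set R : ℕ → ℝ := fun m => 2 * (bd d * lam ^ (m * n) / (1 - lam)) with hR
  have h1l : 0 < 1 - lam := by linarith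
  have hR0 : ∀ m, 0 ≤ R m := fun m => by
    simp only [hR]; positivity
  have hRlim : Tendsto R atTop (𝓝 0) := by
    have h2 : Tendsto (fun m : ℕ => (lam ^ n) ^ m) atTop (𝓝 0) :=
      tendsto_pow_atTop_nhds_zero_of_lt_one (by positivity)
        (pow_lt_one₀ h0.le h1 (by omega))
    have h3 := (((h2.const_mul (bd d)).div_const (1 - lam)).const_mul 2)
    simp only [zero_div, mul_zero] at h3
    refine h3.congr fun m => ?_
    simp only [hR]
    rw [← pow_mul, mul_comm n m]
  have key := Measure.hausdorffMeasure_le_liminf_sum (β := ℕ) (X := ℝ)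
    (ι := fun m => ↥(words P d lam n h m)) (s : ℝ) (⋂ m ≥ M, nbh P d lam n h m) (l := atTop)
    (fun m => ENNReal.ofReal (R m)) (by
      have := ENNReal.tendsto_ofReal hRlim
      simpa using this)
    (fun m v => Metric.closedBall (cen lam n m v.1) (bd d * lam ^ (m * n) / (1 - lam)))
    (Eventually.of_forall fun m v => by
      rw [Real.closedBall_eq_Icc, Real.ediam_Icc]
      apply ENNReal.ofReal_le_ofReal
      simp only [hR]
      linarith)
    ((eventually_ge_atTop M).mono fun m hm => by
      intro x hx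
      have h2 := Set.mem_iInter₂.mp hx m hm
      simp only [nbh, Set.mem_iUnion] at h2
      obtain ⟨v, hv, hxv⟩ := h2
      exact Set.mem_iUnion.mpr ⟨⟨v, hv⟩, hxv⟩)
  refine le_antisymm (key.trans ?_) bot_le
  -- the upper bound
  set c : ℝ := s * (n * log (1 / lam)) - h with hc
  have hcpos : 0 < c := by simp only [hc]; linarith
  have hb : ∀ m : ℕ, ∑ v : ↥(words P d lam n h m),
      Metric.ediam (Metric.closedBall (cen lam n m v.1) (bd d * lam ^ (m * n) / (1 - lam))) ^ (s : ℝ)
        ≤ ENNReal.ofReal ((2 * bd d / (1 - lam)) ^ (s : ℝ) * exp (-c * m)) := by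
    intro m
    have h2 : ∀ v : ↥(words P d lam n h m),
        Metric.ediam (Metric.closedBall (cen lam n m v.1) (bd d * lam ^ (m * n) / (1 - lam))) ^ (s : ℝ)
        = ENNReal.ofReal ((R m) ^ (s : ℝ)) := by
      intro v
      rw [Real.closedBall_eq_Icc, Real.ediam_Icc, ENNReal.ofReal_rpow_of_nonneg _ (NNReal.coe_nonneg s)]
      · congr 2
        simp only [hR]; ring
      · have : 0 ≤ bd d * lam ^ (m * n) / (1 - lam) := by positivity
        linarith
    rw [Finset.sum_congr rfl fun v _ => h2 v, Finset.sum_const, Finset.card_univ,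
      Fintype.card_coe, nsmul_eq_mul, ← ENNReal.ofReal_natCast,
      ← ENNReal.ofReal_mul (Nat.cast_nonneg _)]
    apply ENNReal.ofReal_le_ofReal
    have h3 : (R m) ^ (s : ℝ) =
        (2 * bd d / (1 - lam)) ^ (s : ℝ) * exp (-(s * (n * log (1 / lam))) * m) := by
      have e1 : R m = 2 * bd d / (1 - lam) * exp (-(n * log (1 / lam)) * m) := by
        simp only [hR]
        have e2 : exp (-(n * log (1 / lam)) * m) = lam ^ (m * n) := by
          rw [one_div, log_inv]
          have : -(n * -log lam) * (m : ℝ) = ((m * n : ℕ) : ℝ) * log lam := by push_cast; ring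
          rw [this, exp_nat_mul, exp_log h0]
        rw [e2]; ring
      rw [e1, mul_rpow (by positivity) (exp_pos _).le, ← exp_mul]
      congr 2
      ring
    rw [h3]
    calc ((words P d lam n h m).card : ℝ) *
          ((2 * bd d / (1 - lam)) ^ (s : ℝ) * exp (-(s * (n * log (1 / lam))) * m))
        ≤ exp (m * h) * ((2 * bd d / (1 - lam)) ^ (s : ℝ) * exp (-(s * (n * log (1 / lam))) * m)) :=
          mul_le_mul_of_nonneg_right (card_words P d lam n h m) (by positivity)
      _ = (2 * bd d / (1 - lam)) ^ (s : ℝ) * (exp (m * h) * exp (-(s * (n * log (1 / lam))) * m)) := by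
          ring
      _ = _ := by
          rw [← exp_add]
          congr 2
          simp only [hc]
          ring
  have hlim : Tendsto (fun m : ℕ => ENNReal.ofReal ((2 * bd d / (1 - lam)) ^ (s : ℝ) * exp (-c * m)))
      atTop (𝓝 0) := by
    have h4 : Tendsto (fun m : ℕ => exp (-c * m)) atTop (𝓝 0) := by
      apply tendsto_exp_atBot.comp
      exact (tendsto_natCast_atTop_atTop).const_mul_atTop_of_neg (by linarith)
    have h5 := ENNReal.tendsto_ofReal (h4.const_mul ((2 * bd d / (1 - lam)) ^ (s : ℝ)))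
    simpa using h5
  calc liminf (fun m : ℕ => ∑ v : ↥(words P d lam n h m),
        Metric.ediam (Metric.closedBall (cen lam n m v.1) (bd d * lam ^ (m * n) / (1 - lam))) ^ (s : ℝ))
          atTop
      ≤ liminf (fun m : ℕ => ENNReal.ofReal ((2 * bd d / (1 - lam)) ^ (s : ℝ) * exp (-c * m))) atTop :=
        liminf_le_liminf (Eventually.of_forall hb)
    _ = 0 := hlim.liminf_eq

/-- **Entropy bound for the dimension of a homogeneous self-similar measure.** -/
theorem exists_small_dim (hP : ∀ i, 0 < P.real {i}) {lam : ℝ} (h0 : 0 < lam) (h1 : lam < 1)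
    {n : ℕ} (hn : 1 ≤ n) {s : ℝ≥0} (hs : gent P d lam n < s * (n * log (1 / lam))) :
    ∃ A : Set ℝ, MeasurableSet A ∧ gssm P d lam Aᶜ = 0 ∧ dimH A ≤ s := by
  obtain ⟨h, hh1, hh2⟩ := exists_between hs
  refine ⟨AA P d lam n h, measurableSet_AA P d lam n h, ?_, ?_⟩
  · have e : gssm P d lam = (PP P).map (ser d lam) := rfl
    rw [e, Measure.map_apply (measurable_ser d h0 h1) (measurableSet_AA P d lam n h).compl]
    exact ae_mem_AA P d hP h0 h1 hh1
  · rw [AA, dimH_iUnion]
    refine iSup_le fun M => ?_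
    apply dimH_le_of_hausdorffMeasure_ne_top
    rw [hausdorff_zero P d h0 h1 hn hh2 M]
    exact ENNReal.zero_ne_top

lemma isProbabilityMeasure_gssm {lam : ℝ} (h0 : 0 < lam) (h1 : lam < 1) :
    IsProbabilityMeasure (gssm P d lam) := by
  have e : gssm P d lam = (PP P).map (ser d lam) := rfl
  rw [e]
  exact Measure.isProbabilityMeasure_map (measurable_ser d h0 h1).aemeasurable

/-- A single `n` with entropy below `n log (1 / lam)` gives a carrier of dimension `< 1`. -/
theorem exists_dim_lt_one (hP : ∀ i, 0 < P.real {i}) {lam : ℝ} (h0 : 0 < lam) (h1 : lam < 1)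
    {n : ℕ} (hn : 1 ≤ n) (hs : gent P d lam n < n * log (1 / lam)) :
    ∃ A : Set ℝ, MeasurableSet A ∧ gssm P d lam A = 1 ∧ dimH A < 1 := by
  have hlog : 0 < n * log (1 / lam) := by
    have : 0 < log (1 / lam) := log_pos (by rw [one_div]; exact (one_lt_inv₀ h0).mpr h1)
    have hn' : (0 : ℝ) < n := by exact_mod_cast hn
    positivity
  have hH : 0 ≤ gent P d lam n := by
    unfold gent
    refine Finset.sum_nonneg fun x hx => negMulLog_nonneg (gprob_nonneg _ _ _ _ _) ?_
    have h2 := sum_gprob_one P d lam n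
    have h3 := Finset.single_le_sum (f := gprob P d lam n) (s := vals d lam n)
      (fun y _ => gprob_nonneg P d lam n y) hx
    linarith
  obtain ⟨t, ht1, ht2⟩ := exists_between ((div_lt_one hlog).mpr hs)
  have ht0 : 0 ≤ t := (div_nonneg hH hlog.le).trans ht1.le
  lift t to ℝ≥0 using ht0
  obtain ⟨A, hA, hA0, hAd⟩ := exists_small_dim P d hP h0 h1 hn (s := t) (by
    rw [div_lt_iff₀ hlog] at ht1
    exact ht1)
  refine ⟨A, hA, ?_, lt_of_le_of_lt hAd ?_⟩
  · have := isProbabilityMeasure_gssm P d h0 h1
    have h4 := prob_add_prob_compl (μ := gssm P d lam) hA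
    rw [hA0, add_zero] at h4
    exact h4
  · exact_mod_cast ht2

end Vale.Agent.P105.H5.G
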